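import Vale.Agent.P113.Bumps

/-!
# Functions given by finite lists of periodic terms

`Gen F` says that `F ν t x` is built from rational constants, `ν`, `κ⁻¹` and periodized bumps in
one variable by sums and products. Such a function is the sum of a finite list of periodic terms,
is smooth, is periodic, and its partial derivatives are again of this kind.
-/

namespace Vale.Agent.P113

open Set
open scoped ContDiff

/-- The functions generated by constants, `ν`, `κ⁻¹` and periodized bumps in one variable. -/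
inductive Gen : (ℝ → ℝ → Point → ℝ) → Prop
  | const (q : ℚ) : Gen fun _ _ _ => (q : ℝ)
  | nu : Gen fun ν _ _ => ν
  | kinv : Gen fun _ _ _ => kappa⁻¹
  | time (g : BumpCode) (h : bumpValid g) : Gen fun _ t _ => periodize (bumpVal g) t
  | space (g : BumpCode) (h : bumpValid g) (i : Fin 3) :
      Gen fun _ _ x => periodize (bumpVal g) (x i)
  | add {F G : ℝ → ℝ → Point → ℝ} : Gen F → Gen G → Gen fun ν t x => F ν t x + G ν t x
  | mul {F G : ℝ → ℝ → Point → ℝ} : Gen F → Gen G → Gen fun ν t x => F ν t x * G ν t x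

theorem Gen.congr {F G : ℝ → ℝ → Point → ℝ} (h : Gen F) (e : ∀ ν t x, F ν t x = G ν t x) :
    Gen G := by
  rwa [show G = F from funext fun ν => funext fun t => funext fun x => (e ν t x).symm]

theorem Gen.zero : Gen fun _ _ _ => 0 :=
  (Gen.const 0).congr fun _ _ _ => by simp

theorem Gen.smul {F : ℝ → ℝ → Point → ℝ} (q : ℚ) (h : Gen F) :
    Gen fun ν t x => (q : ℝ) * F ν t x :=
  (Gen.const q).mul h

theorem Gen.neg {F : ℝ → ℝ → Point → ℝ} (h : Gen F) : Gen fun ν t x => -F ν t x :=
  (h.smul (-1)).congr fun _ _ _ => by simp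

theorem Gen.sub {F G : ℝ → ℝ → Point → ℝ} (h : Gen F) (h' : Gen G) :
    Gen fun ν t x => F ν t x - G ν t x :=
  (h.add h'.neg).congr fun _ _ _ => by ring

theorem Gen.finsetSum {ι : Type*} (s : Finset ι) {F : ι → ℝ → ℝ → Point → ℝ}
    (h : ∀ i ∈ s, Gen (F i)) : Gen fun ν t x => ∑ i ∈ s, F i ν t x := by
  classical
  induction s using Finset.induction_on with
  | empty => exact Gen.zero.congr fun _ _ _ => by simp
  | @insert a s ha ih =>
    exact ((h a (Finset.mem_insert_self a s)).add
      (ih fun i hi => h i (Finset.mem_insert_of_mem hi))).congr fun ν t x => by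
      rw [Finset.sum_insert ha]

theorem Gen.listSum {ι : Type*} {F : ι → ℝ → ℝ → Point → ℝ} :
    ∀ l : List ι, (∀ i ∈ l, Gen (F i)) → Gen fun ν t x => (l.map fun i => F i ν t x).sum
  | [], _ => Gen.zero.congr fun _ _ _ => by simp
  | a :: l, h =>
    ((h a (by simp)).add (Gen.listSum l fun i hi => h i (List.mem_cons_of_mem _ hi))).congr
      fun _ _ _ => by simp

/-- The product of two terms. -/
def mulTerm : TermCode → TermCode → TermCode
  | (q, m, n, rs, th, h1, h2, h3), (q', m', n', rs', th', k1, k2, k3) =>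
    (ratCode (q.toRat * q'.toRat), m + m', n + n', rs ++ rs', th ++ th', h1 ++ k1, h2 ++ k2,
      h3 ++ k3)

theorem mulTerm_val : ∀ (a b : TermCode) (ν t : ℝ) (x : Point),
    termVal ν t x (mulTerm a b) = termVal ν t x a * termVal ν t x b
  | (q, m, n, rs, th, h1, h2, h3), (q', m', n', rs', th', k1, k2, k3), ν, t, x => by
    simp only [mulTerm, termVal, spaceFactorVal, List.map_append, List.prod_append, ratCode_val,
      Rat.cast_mul, RatCode.toRat_cast, pow_add, zpow_add₀ kappa_ne]
    ring

theorem mulTerm_valid : ∀ (a b : TermCode), termValid a → termValid b →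
    termValid (mulTerm a b)
  | (_, _, _, _, _, _, _, _), (_, _, _, _, _, _, _, _), ha, hb => by
    simp only [mulTerm, termValid, List.mem_append] at ha hb ⊢
    exact ⟨fun r hr => hr.elim (ha.1 r) (hb.1 r), fun g hg => hg.elim (ha.2.1 g) (hb.2.1 g),
      fun g hg => by have := ha.2.2 g; have := hb.2.2 g; tauto⟩

theorem mulTerm_periodic : ∀ (a b : TermCode), isPeriodicTerm a = true →
    isPeriodicTerm b = true → isPeriodicTerm (mulTerm a b) = true
  | (_, _, _, _, _, _, _, _), (_, _, _, _, _, _, _, _), ha, hb => by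
    simp only [mulTerm, isPeriodicTerm, List.all_append, Bool.and_eq_true] at ha hb ⊢
    exact ⟨ha, hb⟩

/-- A list of valid periodic terms representing `F`. -/
def Represents (L : List TermCode) (F : ℝ → ℝ → Point → ℝ) : Prop :=
  (∀ τ ∈ L, termValid τ ∧ isPeriodicTerm τ = true) ∧
    ∀ ν t x, (L.map (termVal ν t x)).sum = F ν t x

theorem mulList_val (L L' : List TermCode) (ν t : ℝ) (x : Point) :
    ((L.flatMap fun a => L'.map (mulTerm a)).map (termVal ν t x)).sum
      = (L.map (termVal ν t x)).sum * (L'.map (termVal ν t x)).sum := by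
  induction L with
  | nil => simp
  | cons a L ih =>
    simp only [List.flatMap_cons, List.map_append, List.sum_append, List.map_cons, List.sum_cons,
      ih, add_mul, List.map_map]
    congr 1
    rw [← List.sum_map_mul_left]
    congr 1
    exact List.map_congr_left fun b _ => mulTerm_val a b ν t x

theorem singleTerm_ok (g : BumpCode) (hg : bumpValid g) (τ : TermCode)
    (h : τ = (ratCode 1, 0, 0, [], [(true, g)], [], [], []) ∨
      τ = (ratCode 1, 0, 0, [], [], [g], [], []) ∨ τ = (ratCode 1, 0, 0, [], [], [], [g], []) ∨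
      τ = (ratCode 1, 0, 0, [], [], [], [], [g])) :
    ∀ σ ∈ [τ], termValid σ ∧ isPeriodicTerm σ = true := by
  intro σ hσ
  rw [List.mem_singleton] at hσ
  subst hσ
  rcases h with rfl | rfl | rfl | rfl <;>
    refine ⟨⟨fun r hr => ?_, fun g' hg' => ?_, fun g' hg' => ?_⟩, rfl⟩
  all_goals first
    | (simp at hr; done)
    | (simp at hg'; done)
    | (simp only [List.append_nil, List.nil_append, List.mem_singleton] at hg'
       subst hg'
       exact hg)

theorem Gen.exists_terms {F : ℝ → ℝ → Point → ℝ} (h : Gen F) : ∃ L, Represents L F := by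
  induction h with
  | const q =>
    refine ⟨[(ratCode q, 0, 0, [], [], [], [], [])], ?_, fun ν t x => ?_⟩
    · simp [termValid, isPeriodicTerm]
    · simp [termVal, spaceFactorVal, ratCode_val]
  | nu =>
    refine ⟨[(ratCode 1, 1, 0, [], [], [], [], [])], ?_, fun ν t x => ?_⟩
    · simp [termValid, isPeriodicTerm]
    · simp [termVal, spaceFactorVal, ratCode_val]
  | kinv =>
    refine ⟨[(ratCode 1, 0, -1, [], [], [], [], [])], ?_, fun ν t x => ?_⟩
    · simp [termValid, isPeriodicTerm]
    · simp [termVal, spaceFactorVal, ratCode_val]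
  | time g hg =>
    refine ⟨[(ratCode 1, 0, 0, [], [(true, g)], [], [], [])], ?_, fun ν t x => ?_⟩
    · exact singleTerm_ok g hg _ (by simp)
    · simp [termVal, spaceFactorVal, timeFactorVal, ratCode_val]
  | space g hg i =>
    fin_cases i
    · refine ⟨[(ratCode 1, 0, 0, [], [], [g], [], [])], ?_, fun ν t x => ?_⟩
      · exact singleTerm_ok g hg _ (by simp)
      · simp [termVal, spaceFactorVal, ratCode_val]
    · refine ⟨[(ratCode 1, 0, 0, [], [], [], [g], [])], ?_, fun ν t x => ?_⟩
      · exact singleTerm_ok g hg _ (by simp)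
      · simp [termVal, spaceFactorVal, ratCode_val]
    · refine ⟨[(ratCode 1, 0, 0, [], [], [], [], [g])], ?_, fun ν t x => ?_⟩
      · exact singleTerm_ok g hg _ (by simp)
      · simp [termVal, spaceFactorVal, ratCode_val]
  | add _ _ ihF ihG =>
    obtain ⟨L, hL, eL⟩ := ihF
    obtain ⟨L', hL', eL'⟩ := ihG
    refine ⟨L ++ L', fun τ hτ => (List.mem_append.1 hτ).elim (hL τ) (hL' τ), fun ν t x => ?_⟩
    simp [eL, eL']
  | mul _ _ ihF ihG =>
    obtain ⟨L, hL, eL⟩ := ihF
    obtain ⟨L', hL', eL'⟩ := ihG
    refine ⟨L.flatMap fun a => L'.map (mulTerm a), fun τ hτ => ?_, fun ν t x => ?_⟩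
    · simp only [List.mem_flatMap, List.mem_map] at hτ
      obtain ⟨a, ha, b, hb, rfl⟩ := hτ
      exact ⟨mulTerm_valid a b (hL a ha).1 (hL' b hb).1,
        mulTerm_periodic a b (hL a ha).2 (hL' b hb).2⟩
    · rw [mulList_val, eL, eL']

theorem Gen.contDiff {F : ℝ → ℝ → Point → ℝ} (h : Gen F) (ν : ℝ) :
    ContDiff ℝ ∞ fun z : ℝ × Point => F ν z.1 z.2 := by
  induction h with
  | const q => exact contDiff_const
  | nu => exact contDiff_const
  | kinv => exact contDiff_const
  | time g hg =>
    exact (periodize_contDiff (bumpVal_hasCompactSupport hg) (bumpVal_contDiff g)).comp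
      contDiff_fst
  | space g hg i =>
    exact (periodize_contDiff (bumpVal_hasCompactSupport hg) (bumpVal_contDiff g)).comp
      ((contDiff_apply ℝ ℝ i).comp contDiff_snd)
  | add _ _ ihF ihG => exact ihF.add ihG
  | mul _ _ ihF ihG => exact ihF.mul ihG

theorem termVal_contDiff (ν : ℝ) : ∀ {τ : TermCode}, termValid τ →
    ContDiff ℝ ∞ fun z : ℝ × Point => termVal ν z.1 z.2 τ
  | (q, m, n, rs, th, h1, h2, h3), h => by
    have hfac : ∀ (l : List BumpCode), (∀ g ∈ l, bumpValid g) → ∀ i,
        ContDiff ℝ ∞ fun z : ℝ × Point => spaceFactorVal l (z.2 i) := by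
      intro l hl i
      induction l with
      | nil => simpa [spaceFactorVal] using contDiff_const
      | cons g l ih =>
        simp only [spaceFactorVal, List.map_cons, List.prod_cons]
        exact ((periodize_contDiff (bumpVal_hasCompactSupport (hl g (by simp)))
          (bumpVal_contDiff g)).comp ((contDiff_apply ℝ ℝ i).comp contDiff_snd)).mul
          (ih fun g' hg' => hl g' (List.mem_cons_of_mem _ hg'))
    have htime : ∀ (l : List TimeFactor), (∀ g ∈ l, bumpValid g.2) →
        ContDiff ℝ ∞ fun z : ℝ × Point => (l.map fun g => timeFactorVal g z.1).prod := by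
      intro l hl
      induction l with
      | nil => simpa using contDiff_const
      | cons g l ih =>
        simp only [List.map_cons, List.prod_cons]
        refine ContDiff.mul ?_ (ih fun g' hg' => hl g' (List.mem_cons_of_mem _ hg'))
        have hv := hl g (by simp)
        rcases g with ⟨_ | _, g⟩
        · exact (bumpVal_contDiff g).comp contDiff_fst
        · exact (periodize_contDiff (bumpVal_hasCompactSupport hv) (bumpVal_contDiff g)).comp
            contDiff_fst
    simp only [termValid, List.mem_append] at h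
    exact ((contDiff_const.mul (htime th h.2.1)).mul
      (((hfac h1 (fun g hg => h.2.2 g (Or.inl (Or.inl hg))) 0).mul
        (hfac h2 (fun g hg => h.2.2 g (Or.inl (Or.inr hg))) 1)).mul
        (hfac h3 (fun g hg => h.2.2 g (Or.inr hg)) 2)))

theorem termList_contDiff : ∀ (L : List TermCode), (∀ τ ∈ L, termValid τ) → ∀ ν : ℝ,
    ContDiff ℝ ∞ fun z : ℝ × Point => (L.map (termVal ν z.1 z.2)).sum
  | [], _, _ => by simpa using contDiff_const
  | τ :: L, h, ν => by
    simp only [List.map_cons, List.sum_cons]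
    exact (termVal_contDiff ν (h τ (by simp))).add
      (termList_contDiff L (fun σ hσ => h σ (List.mem_cons_of_mem _ hσ)) ν)

theorem Gen.periodic {F : ℝ → ℝ → Point → ℝ} (h : Gen F) (ν t : ℝ) (x : Point)
    (k : Fin 3 → ℤ) : F ν t (shiftBy k x) = F ν t x := by
  induction h with
  | const q => rfl
  | nu => rfl
  | kinv => rfl
  | time g hg => rfl
  | space g hg i => exact periodize_add_int _ _ _
  | add _ _ ihF ihG => simp only [ihF, ihG]
  | mul _ _ ihF ihG => simp only [ihF, ihG]

theorem Gen.periodize_deriv (g : BumpCode) (hg : bumpValid g) (j : Option (Fin 3)) :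
    Gen fun _ t x => ((bumpDerivList g).map fun c =>
      (c.1 : ℝ) * periodize (bumpVal c.2) (j.elim t x)).sum := by
  refine Gen.listSum _ fun c hc => ?_
  have hv := bumpDerivList_valid hg c hc
  rcases j with _ | i
  · exact Gen.smul c.1 (Gen.time c.2 hv)
  · exact Gen.smul c.1 (Gen.space c.2 hv i)

/-- The time derivative of a generated function is generated. -/
theorem Gen.exists_dt {F : ℝ → ℝ → Point → ℝ} (h : Gen F) :
    ∃ G, Gen G ∧ ∀ ν t x, HasDerivAt (fun s => F ν s x) (G ν t x) t := by
  induction h with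
  | const q => exact ⟨_, Gen.zero, fun _ t _ => hasDerivAt_const t _⟩
  | nu => exact ⟨_, Gen.zero, fun _ t _ => hasDerivAt_const t _⟩
  | kinv => exact ⟨_, Gen.zero, fun _ t _ => hasDerivAt_const t _⟩
  | time g hg =>
    exact ⟨_, Gen.periodize_deriv g hg none, fun _ t _ => periodize_bump_hasDerivAt hg t⟩
  | space g hg i => exact ⟨_, Gen.zero, fun _ t _ => hasDerivAt_const t _⟩
  | add hF hG ihF ihG =>
    obtain ⟨F', hF', dF⟩ := ihF
    obtain ⟨G', hG', dG⟩ := ihG
    exact ⟨_, hF'.add hG', fun ν t x => (dF ν t x).add (dG ν t x)⟩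
  | mul hF hG ihF ihG =>
    obtain ⟨F', hF', dF⟩ := ihF
    obtain ⟨G', hG', dG⟩ := ihG
    exact ⟨_, (hF'.mul hG).add (hF.mul hG'), fun ν t x => (dF ν t x).mul (dG ν t x)⟩

/-- The space derivatives of a generated function are generated. -/
theorem Gen.exists_dx {F : ℝ → ℝ → Point → ℝ} (h : Gen F) (j : Fin 3) :
    ∃ G, Gen G ∧
      ∀ ν t x, HasDerivAt (fun s => F ν t (Function.update x j s)) (G ν t x) (x j) := by
  induction h with
  | const q => exact ⟨_, Gen.zero, fun _ _ x => hasDerivAt_const (x j) _⟩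
  | nu => exact ⟨_, Gen.zero, fun _ _ x => hasDerivAt_const (x j) _⟩
  | kinv => exact ⟨_, Gen.zero, fun _ _ x => hasDerivAt_const (x j) _⟩
  | time g hg => exact ⟨_, Gen.zero, fun _ _ x => hasDerivAt_const (x j) _⟩
  | space g hg i =>
    rcases eq_or_ne i j with rfl | hne
    · refine ⟨_, Gen.periodize_deriv g hg (some i), fun _ _ x => ?_⟩
      simpa using periodize_bump_hasDerivAt hg (x i)
    · refine ⟨_, Gen.zero, fun _ _ x => ?_⟩
      simpa [Function.update_of_ne hne] using
        hasDerivAt_const (x j) (periodize (bumpVal g) (x i))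
  | add hF hG ihF ihG =>
    obtain ⟨F', hF', dF⟩ := ihF
    obtain ⟨G', hG', dG⟩ := ihG
    exact ⟨_, hF'.add hG', fun ν t x => (dF ν t x).add (dG ν t x)⟩
  | mul hF hG ihF ihG =>
    obtain ⟨F', hF', dF⟩ := ihF
    obtain ⟨G', hG', dG⟩ := ihG
    refine ⟨_, (hF'.mul hG).add (hF.mul hG'), fun ν t x => ?_⟩
    simpa using (dF ν t x).fun_mul (dG ν t x)

end Vale.Agent.P113
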