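import Vale.Agent.P113.Defs

/-!
# Bumps, their periodizations and their derivatives
-/

namespace Vale.Agent.P113

open MeasureTheory Set
open scoped ContDiff

/-- The code of a rational number. -/
def ratCode (q : ℚ) : RatCode := (q.num, q.den - 1)

theorem ratCode_val (q : ℚ) : (ratCode q).val = (q : ℝ) := by
  have h : ((q.den - 1 : ℕ) : ℝ) + 1 = (q.den : ℝ) := by
    have := q.den_pos
    rw [← Nat.cast_add_one, Nat.sub_add_cancel this]
  simp [RatCode.val, ratCode, h, Rat.cast_def]

/-- The rational number with a given code. -/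
def RatCode.toRat (q : RatCode) : ℚ := (q.1 : ℚ) / ((q.2 : ℚ) + 1)

theorem RatCode.toRat_cast (q : RatCode) : ((q.toRat : ℚ) : ℝ) = q.val := by
  simp [RatCode.toRat, RatCode.val]

theorem rho_eq : rho = fun s => expNegInvGlue (1 - s ^ 2) := by
  funext s
  unfold rho expNegInvGlue
  by_cases h : |s| < 1
  · have h2 : ¬ (1 - s ^ 2 ≤ 0) := by
      have := (sq_lt_one_iff_abs_lt_one s).2 h
      linarith
    rw [if_pos h, if_neg h2]
    congr 1
    field_simp
  · have h2 : 1 - s ^ 2 ≤ 0 := by
      have : ¬ s ^ 2 < 1 := fun hh => h ((sq_lt_one_iff_abs_lt_one s).1 hh)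
      linarith
    rw [if_neg h, if_pos h2]

theorem rho_contDiff {n : ℕ∞} : ContDiff ℝ n rho := by
  rw [rho_eq]
  exact expNegInvGlue.contDiff.comp (contDiff_const.sub (contDiff_id.pow 2))

theorem rho_continuous : Continuous rho := (rho_contDiff (n := 0)).continuous

theorem rho_nonneg (s : ℝ) : 0 ≤ rho s := by
  rw [rho_eq]; exact expNegInvGlue.nonneg _

theorem rho_zero_of {s : ℝ} (h : 1 ≤ |s|) : rho s = 0 := by
  unfold rho; rw [if_neg (not_lt.2 h)]

theorem rho_support : Function.support rho ⊆ Ioo (-1) 1 := by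
  intro s hs
  have : |s| < 1 := by
    by_contra h
    exact hs (rho_zero_of (not_lt.1 h))
  exact abs_lt.1 this

theorem rho_hasCompactSupport : HasCompactSupport rho :=
  HasCompactSupport.of_support_subset_isCompact isCompact_Icc
    (rho_support.trans Ioo_subset_Icc_self)

theorem rho_integrable : Integrable rho :=
  rho_continuous.integrable_of_hasCompactSupport rho_hasCompactSupport

theorem kappa_pos : 0 < kappa := by
  refine rho_continuous.integral_pos_of_hasCompactSupport_nonneg_nonzero
    rho_hasCompactSupport rho_nonneg (x := 0) ?_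
  simp [rho]

theorem kappa_ne : kappa ≠ 0 := kappa_pos.ne'

theorem sigma_hasDerivAt (s : ℝ) : HasDerivAt sigma (rho s) s := by
  have h : sigma = fun s => sigma 0 + ∫ r in (0 : ℝ)..s, rho r := by
    funext s
    have := intervalIntegral.integral_Iic_sub_Iic (a := (0 : ℝ)) (b := s)
      rho_integrable.integrableOn rho_integrable.integrableOn
    unfold sigma
    linarith
  rw [h]
  exact (rho_continuous.integral_hasStrictDerivAt 0 s).hasDerivAt.const_add _

theorem sigma_contDiff : ContDiff ℝ ∞ sigma := by
  rw [contDiff_infty_iff_deriv]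
  refine ⟨fun s => (sigma_hasDerivAt s).differentiableAt, ?_⟩
  have : deriv sigma = rho := funext fun s => (sigma_hasDerivAt s).deriv
  rw [this]
  exact rho_contDiff

theorem sigma_of_le {s : ℝ} (h : s ≤ -1) : sigma s = 0 := by
  unfold sigma
  refine setIntegral_eq_zero_of_forall_eq_zero fun r hr => rho_zero_of ?_
  simp only [mem_Iic] at hr
  rw [abs_of_nonpos (by linarith)]
  linarith

theorem sigma_of_ge {s : ℝ} (h : 1 ≤ s) : sigma s = kappa := by
  unfold sigma kappa
  rw [setIntegral_eq_integral_of_forall_compl_eq_zero]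
  intro r hr
  simp only [mem_Iic, not_le] at hr
  apply rho_zero_of
  rw [abs_of_nonneg (by linarith)]
  linarith

theorem piEll_one {l s : ℝ} (h1 : 1 ≤ s) (h2 : s ≤ l - 1) : piEll l s = kappa := by
  rw [piEll, sigma_of_ge h1, sigma_of_le (by linarith), sub_zero]

theorem piEll_zero {l s : ℝ} (hl : 0 ≤ l) (h : s ≤ -1 ∨ l + 1 ≤ s) : piEll l s = 0 := by
  rcases h with h | h
  · rw [piEll, sigma_of_le h, sigma_of_le (by linarith), sub_zero]
  · rw [piEll, sigma_of_ge (s := s) (by linarith), sigma_of_ge (by linarith), sub_self]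

theorem piEll_hasDerivAt (l s : ℝ) : HasDerivAt (piEll l) (rho s - rho (s - l)) s := by
  unfold piEll
  refine (sigma_hasDerivAt s).sub ?_
  exact (sigma_hasDerivAt (s - l)).comp_sub_const s l

theorem piEll_contDiff (l : ℝ) : ContDiff ℝ ∞ (piEll l) :=
  sigma_contDiff.sub (sigma_contDiff.comp (contDiff_id.sub contDiff_const))

theorem iteratedDeriv_rho_contDiff : ∀ j, ContDiff ℝ ∞ (iteratedDeriv j rho)
  | 0 => by simpa using (rho_contDiff (n := ⊤))
  | j + 1 => by
    rw [iteratedDeriv_succ]
    exact (contDiff_infty_iff_deriv.1 (iteratedDeriv_rho_contDiff j)).2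

theorem profileVal_contDiff (g : Profile) : ContDiff ℝ ∞ (profileVal g) := by
  rcases g with j | l
  · exact iteratedDeriv_rho_contDiff j
  · exact piEll_contDiff _

theorem iteratedDeriv_rho_hasCompactSupport (j : ℕ) :
    HasCompactSupport (iteratedDeriv j rho) := by
  induction j with
  | zero => simpa using rho_hasCompactSupport
  | succ j ih => rw [iteratedDeriv_succ]; exact ih.deriv

theorem piEll_hasCompactSupport {l : ℝ} (hl : 0 ≤ l) : HasCompactSupport (piEll l) := by
  refine HasCompactSupport.intro (isCompact_Icc (a := -1) (b := l + 1)) fun s hs => ?_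
  apply piEll_zero hl
  simp only [mem_Icc, not_and_or, not_le] at hs
  rcases hs with h | h
  · exact Or.inl h.le
  · exact Or.inr h.le

theorem profileVal_hasCompactSupport : ∀ (g : BumpCode), bumpValid g →
    HasCompactSupport (profileVal g.1)
  | (Sum.inl j, _, _, _), _ => iteratedDeriv_rho_hasCompactSupport j
  | (Sum.inr _, _, _, _), h => piEll_hasCompactSupport h.2.le

theorem bumpValid_ne : ∀ {g : BumpCode}, bumpValid g → g.2.2.1.val ≠ 0
  | (Sum.inl _, _, _, _), h => h
  | (Sum.inr _, _, _, _), h => h.1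

theorem bumpVal_contDiff : ∀ g : BumpCode, ContDiff ℝ ∞ (bumpVal g)
  | (g, k, a, b) =>
    (contDiff_id.pow k).mul
      ((profileVal_contDiff g).comp ((contDiff_const.mul contDiff_id).sub contDiff_const))

theorem bumpVal_hasCompactSupport : ∀ {g : BumpCode}, bumpValid g →
    HasCompactSupport (bumpVal g)
  | (_, k, a, b), h => by
    have ha : a.val ≠ 0 := bumpValid_ne h
    have hh := (profileVal_hasCompactSupport _ h).comp_homeomorph
      ((Homeomorph.mulLeft₀ a.val ha).trans (Homeomorph.subRight b.val))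
    exact HasCompactSupport.mul_left (f := fun s : ℝ => s ^ k) hh

/-- The derivative of a bump as a combination of bumps. -/
def bumpDerivList : BumpCode → List (ℚ × BumpCode)
  | (Sum.inl j, k, a, b) =>
      [((k : ℚ), (Sum.inl j, k - 1, a, b)), (a.toRat, (Sum.inl (j + 1), k, a, b))]
  | (Sum.inr l, k, a, b) =>
      [((k : ℚ), (Sum.inr l, k - 1, a, b)), (a.toRat, (Sum.inl 0, k, a, b)),
        (-a.toRat, (Sum.inl 0, k, a, ratCode (b.toRat + l.toRat)))]

theorem bumpDerivList_valid : ∀ {g : BumpCode}, bumpValid g →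
    ∀ c ∈ bumpDerivList g, bumpValid c.2
  | (Sum.inl _, _, _, _), h, c, hc => by
    simp only [bumpDerivList, List.mem_cons, List.not_mem_nil, or_false] at hc
    rcases hc with rfl | rfl <;> exact h
  | (Sum.inr _, _, _, _), h, c, hc => by
    simp only [bumpDerivList, List.mem_cons, List.not_mem_nil, or_false] at hc
    rcases hc with rfl | rfl | rfl
    · exact h
    · exact h.1
    · exact h.1

theorem bumpVal_hasDerivAt : ∀ (g : BumpCode) (s : ℝ),
    HasDerivAt (bumpVal g) ((bumpDerivList g).map fun c => (c.1 : ℝ) * bumpVal c.2 s).sum s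
  | (Sum.inl j, k, a, b), s => by
    have hd : HasDerivAt (iteratedDeriv j rho) (iteratedDeriv (j + 1) rho (a.val * s - b.val))
        (a.val * s - b.val) := by
      rw [iteratedDeriv_succ]
      exact ((iteratedDeriv_rho_contDiff j).differentiable (by norm_num) _).hasDerivAt
    have h2 := hd.comp s (((hasDerivAt_id s).const_mul a.val).sub_const b.val)
    have h3 := (hasDerivAt_pow k s).mul h2
    convert! h3 using 1
    simp only [bumpDerivList, bumpVal, profileVal, List.map_cons, List.map_nil, List.sum_cons,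
      List.sum_nil, RatCode.toRat_cast, Rat.cast_natCast, id_eq, Function.comp_apply]
    ring
  | (Sum.inr l, k, a, b), s => by
    have h2 := (piEll_hasDerivAt l.val (a.val * s - b.val)).comp s
      (((hasDerivAt_id s).const_mul a.val).sub_const b.val)
    have h3 := (hasDerivAt_pow k s).mul h2
    convert! h3 using 1
    simp only [bumpDerivList, bumpVal, profileVal, List.map_cons, List.map_nil, List.sum_cons,
      List.sum_nil, RatCode.toRat_cast, Rat.cast_natCast, Rat.cast_neg, iteratedDeriv_zero,
      id_eq, Function.comp_apply, ratCode_val, Rat.cast_add]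
    rw [show a.val * s - b.val - l.val = a.val * s - (b.val + l.val) by ring]
    ring

/-- Only finitely many translates of a compactly supported function meet a bounded interval. -/
theorem periodize_eq_sum {g : ℝ → ℝ} (hg : HasCompactSupport g) (R : ℝ) :
    ∃ s : Finset ℤ, ∀ y : ℝ, |y| ≤ R → ∀ m : ℤ, m ∉ s → g (y + m) = 0 := by
  obtain ⟨K, hK⟩ := hg.isBounded.subset_closedBall 0
  refine ⟨Finset.Icc (-⌈K + R⌉) ⌈K + R⌉, fun y hy m hm => ?_⟩
  by_contra h
  apply hm
  have h1 := hK (subset_tsupport g (Function.mem_support.2 h))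
  rw [Metric.mem_closedBall, dist_zero_right, Real.norm_eq_abs] at h1
  have h2 : |(m : ℝ)| ≤ K + R := by
    calc |(m : ℝ)| = |(y + m) - y| := by ring_nf
      _ ≤ |y + m| + |y| := abs_sub _ _
      _ ≤ K + R := add_le_add h1 hy
  have h3 : |(m : ℝ)| ≤ (⌈K + R⌉ : ℝ) := h2.trans (Int.le_ceil _)
  rw [Finset.mem_Icc, ← abs_le]
  exact_mod_cast h3

theorem periodize_add_int (g : ℝ → ℝ) (y : ℝ) (k : ℤ) :
    periodize g (y + k) = periodize g y := by
  unfold periodize
  rw [← (Equiv.addLeft k).tsum_eq (fun m : ℤ => g (y + m))]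
  congr 1
  funext m
  simp [Equiv.addLeft, add_assoc]

theorem periodize_hasDerivAt {g g' : ℝ → ℝ} (hg : HasCompactSupport g)
    (hg' : HasCompactSupport g') (h : ∀ s, HasDerivAt g (g' s) s) (y : ℝ) :
    HasDerivAt (periodize g) (periodize g' y) y := by
  obtain ⟨s, hs⟩ := periodize_eq_sum hg (|y| + 1)
  obtain ⟨s', hs'⟩ := periodize_eq_sum hg' (|y| + 1)
  have e : periodize g =ᶠ[nhds y] fun z => ∑ m ∈ s ∪ s', g (z + m) := by
    filter_upwards [Metric.ball_mem_nhds y one_pos] with z hz
    rw [Metric.mem_ball, Real.dist_eq] at hz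
    refine tsum_eq_sum fun m hm => hs z ?_ m (fun hh => hm (Finset.mem_union_left _ hh))
    have := abs_sub_abs_le_abs_sub z y
    linarith
  have e' : periodize g' y = ∑ m ∈ s ∪ s', g' (y + m) :=
    tsum_eq_sum fun m hm => hs' y (by linarith) m (fun hh => hm (Finset.mem_union_right _ hh))
  rw [e']
  refine HasDerivAt.congr_of_eventuallyEq ?_ e
  refine HasDerivAt.fun_sum fun m _ => ?_
  exact (h (y + m)).comp_add_const y (m : ℝ)

theorem periodize_contDiff {g : ℝ → ℝ} (hg : HasCompactSupport g) {n : WithTop ℕ∞}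
    (h : ContDiff ℝ n g) : ContDiff ℝ n (periodize g) := by
  refine contDiff_iff_contDiffAt.2 fun y => ?_
  obtain ⟨s, hs⟩ := periodize_eq_sum hg (|y| + 1)
  have e : periodize g =ᶠ[nhds y] fun z => ∑ m ∈ s, g (z + m) := by
    filter_upwards [Metric.ball_mem_nhds y one_pos] with z hz
    rw [Metric.mem_ball, Real.dist_eq] at hz
    refine tsum_eq_sum fun m hm => hs z ?_ m hm
    have := abs_sub_abs_le_abs_sub z y
    linarith
  refine ContDiffAt.congr_of_eventuallyEq ?_ e
  exact ContDiffAt.sum fun m _ => (h.comp (contDiff_id.add contDiff_const)).contDiffAt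

/-- A function supported in `[c, c + 1)` agrees there with its periodization. -/
theorem periodize_eq_self {g : ℝ → ℝ} {c y : ℝ} (hy : y ∈ Ico c (c + 1))
    (hg : ∀ s, g s ≠ 0 → s ∈ Ico c (c + 1)) : periodize g y = g y := by
  unfold periodize
  rw [tsum_eq_single (0 : ℤ)]
  · simp
  · intro m hm
    by_contra h
    have h1 := hg _ h
    rw [mem_Ico] at h1 hy
    apply hm
    have h2 : (m : ℝ) < 1 := by linarith
    have h3 : (-1 : ℝ) < (m : ℝ) := by linarith
    have h4 : m < 1 := by exact_mod_cast h2
    have h5 : -1 < m := by exact_mod_cast h3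
    omega

theorem periodize_bump_hasDerivAt {g : BumpCode} (h : bumpValid g) (y : ℝ) :
    HasDerivAt (periodize (bumpVal g))
      ((bumpDerivList g).map fun c => (c.1 : ℝ) * periodize (bumpVal c.2) y).sum y := by
  have hd := bumpVal_hasDerivAt g
  have hv := bumpDerivList_valid h
  have key : ∀ (L : List (ℚ × BumpCode)), (∀ c ∈ L, bumpValid c.2) →
      periodize (fun s => (L.map fun c => (c.1 : ℝ) * bumpVal c.2 s).sum) y
        = (L.map fun c => (c.1 : ℝ) * periodize (bumpVal c.2) y).sum ∧
      Summable (fun m : ℤ => (L.map fun c => (c.1 : ℝ) * bumpVal c.2 (y + m)).sum) := by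
    intro L
    induction L with
    | nil => intro _; simp [periodize, summable_zero]
    | cons c L ih =>
      intro hL
      obtain ⟨e, hs⟩ := ih fun c hc => hL c (List.mem_cons_of_mem _ hc)
      obtain ⟨s, hs0⟩ := periodize_eq_sum (bumpVal_hasCompactSupport (hL c (by simp))) |y|
      have h1 : Summable fun m : ℤ => (c.1 : ℝ) * bumpVal c.2 (y + m) :=
        (summable_of_ne_finset_zero (s := s) fun m hm => hs0 y le_rfl m hm).mul_left _
      simp only [List.map_cons, List.sum_cons, periodize] at e ⊢
      refine ⟨?_, h1.add hs⟩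
      rw [h1.tsum_add hs, e, tsum_mul_left]
  have hsupp : HasCompactSupport
      (fun s => ((bumpDerivList g).map fun c => (c.1 : ℝ) * bumpVal c.2 s).sum) := by
    have := (bumpVal_hasCompactSupport h).deriv
    rwa [show deriv (bumpVal g) = _ from funext fun s => (hd s).deriv] at this
  rw [← (key _ hv).1]
  exact periodize_hasDerivAt (bumpVal_hasCompactSupport h) hsupp hd y

end Vale.Agent.P113
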