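import Vale.Agent.P113.Defs

/-!
# Periodic functions on the unit cube
-/

namespace Vale.Agent.P113

open MeasureTheory Set

/-- The unit cube. -/
abbrev cube : Set Point := Icc (0 : Point) 1

/-- A function which is periodic with respect to all integer vectors. -/
def PeriodicFn (g : Point → ℝ) : Prop := ∀ x k, g (shiftBy k x) = g x

theorem update_shiftBy (k : Fin 3 → ℤ) (x : Point) (j : Fin 3) (s : ℝ) :
    Function.update (shiftBy k x) j (s + (k j : ℝ)) = shiftBy k (Function.update x j s) := by
  funext i
  rcases eq_or_ne i j with rfl | h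
  · simp [shiftBy]
  · simp [shiftBy, Function.update_of_ne h]

/-- The partial derivative of a periodic function is periodic. -/
theorem periodicFn_deriv {g g' : Point → ℝ} (hg : PeriodicFn g) (j : Fin 3)
    (hd : ∀ x, HasDerivAt (fun s => g (Function.update x j s)) (g' x) (x j)) :
    PeriodicFn g' := by
  intro x k
  have hd' : HasDerivAt (fun s => g (Function.update (shiftBy k x) j s)) (g' (shiftBy k x))
      (x j + (k j : ℝ)) := hd (shiftBy k x)
  have h1 := hd'.comp_add_const (x j) (k j : ℝ)
  have h2 : (fun s => g (Function.update (shiftBy k x) j (s + (k j : ℝ))))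
      = fun s => g (Function.update x j s) := by
    funext s; rw [update_shiftBy, hg]
  rw [h2] at h1
  exact h1.unique (hd x)

/-- The integral over the cube of a derivative of a periodic function vanishes. -/
theorem integral_cube_deriv_eq_zero {g g' : Point → ℝ} (hg : PeriodicFn g) (j : Fin 3)
    (hd : ∀ x, HasDerivAt (fun s => g (Function.update x j s)) (g' x) (x j))
    (hc : Continuous g') : ∫ x in cube, g' x = 0 := by
  set e := MeasurableEquiv.piFinSuccAbove (fun _ : Fin 3 => ℝ) j with he
  have hmp := volume_preserving_piFinSuccAbove (fun _ : Fin 3 => ℝ) j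
  have hsymm : MeasurePreserving e.symm := hmp.symm e
  have hemb := e.symm.measurableEmbedding
  rw [← hsymm.setIntegral_preimage_emb hemb]
  have hpre : e.symm ⁻¹' cube = Icc (0 : ℝ) 1 ×ˢ Icc (0 : Fin 2 → ℝ) 1 := by
    ext ⟨s, y⟩
    simp only [he, cube, mem_preimage, MeasurableEquiv.piFinSuccAbove_symm_apply,
      Fin.insertNthEquiv_apply, mem_prod, mem_Icc, Pi.le_def, Pi.zero_apply, Pi.one_apply,
      Fin.forall_iff_succAbove j, Fin.insertNth_apply_same, Fin.insertNth_apply_succAbove]
    tauto
  have hcomp : IntegrableOn (fun z : ℝ × (Fin 2 → ℝ) => g' (e.symm z))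
      (Icc (0 : ℝ) 1 ×ˢ Icc (0 : Fin 2 → ℝ) 1) := by
    refine Continuous.continuousOn ?_ |>.integrableOn_compact (isCompact_Icc.prod isCompact_Icc)
    refine hc.comp ?_
    exact continuous_fst.finInsertNth (A := fun _ : Fin 3 => ℝ) j continuous_snd
  rw [hpre, Measure.volume_eq_prod, setIntegral_prod_swap_aux hcomp]
  refine setIntegral_eq_zero_of_forall_eq_zero fun y _ => ?_
  have hes : ∀ s : ℝ, e.symm (s, y) = Fin.insertNth (α := fun _ : Fin 3 => ℝ) j s y := fun _ => rfl
  have hF : ∀ s, HasDerivAt (fun r => g (e.symm (r, y))) (g' (e.symm (s, y))) s := by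
    intro s
    simp only [hes]
    have := hd (Fin.insertNth j s y)
    simpa [Fin.insertNth_apply_same, Fin.update_insertNth] using this
  have hcy : Continuous fun s => g' (e.symm (s, y)) := by
    simp only [hes]
    exact hc.comp ((continuous_id : Continuous fun s : ℝ => s).finInsertNth
      (A := fun _ : Fin 3 => ℝ) (g := fun _ => y) j continuous_const)
  rw [integral_Icc_eq_integral_Ioc, ← intervalIntegral.integral_of_le zero_le_one,
    intervalIntegral.integral_eq_sub_of_hasDerivAt (fun s _ => hF s)
      (hcy.intervalIntegrable _ _)]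
  have h01 : e.symm ((1 : ℝ), y) = shiftBy (Function.update 0 j 1) (e.symm ((0 : ℝ), y)) := by
    rw [hes, hes]
    funext i
    rcases Fin.eq_self_or_eq_succAbove j i with rfl | ⟨l, rfl⟩
    · simp [shiftBy]
    · simp [shiftBy]
  rw [h01, hg, sub_self]
where
  setIntegral_prod_swap_aux {f : ℝ × (Fin 2 → ℝ) → ℝ} {s : Set ℝ} {t : Set (Fin 2 → ℝ)}
      (hf : IntegrableOn f (s ×ˢ t)) :
      ∫ z in s ×ˢ t, f z ∂((volume : Measure ℝ).prod volume) = ∫ y in t, ∫ r in s, f (r, y) := by
    rw [← Measure.prod_restrict]
    apply integral_prod_symm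
    rwa [Measure.prod_restrict, ← Measure.volume_eq_prod]

/-- A continuous function whose integral of the square over the cube vanishes is zero there. -/
theorem eq_zero_of_integral_sq {g : Point → ℝ} (hc : Continuous g) (hp : PeriodicFn g)
    (h : ∫ x in cube, g x ^ 2 = 0) (x : Point) : g x = 0 := by
  have hsub : cube ⊆ closure (interior cube) := by
    rw [cube, ← pi_univ_Icc, interior_pi_set finite_univ, closure_pi_set]
    exact fun y hy i hi => by
      simpa [interior_Icc, closure_Ioo (zero_ne_one (α := ℝ))] using hy i hi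
  have h0 : (fun y => g y ^ 2) =ᵐ[volume.restrict cube] 0 :=
    (setIntegral_eq_zero_iff_of_nonneg_ae
      (Filter.Eventually.of_forall fun y => sq_nonneg (g y))
      (hc.pow 2).integrableOn_Icc).1 h
  have h1 := Measure.eqOn_of_ae_eq h0 (hc.pow 2).continuousOn continuousOn_const hsub
  have h2 := h1 (x := shiftBy (fun i => -⌊x i⌋) x) ?_
  · simp only [Pi.zero_apply] at h2
    rw [← hp x (fun i => -⌊x i⌋)]
    exact pow_eq_zero_iff two_ne_zero |>.1 h2
  · simp only [cube, shiftBy, mem_Icc, Pi.le_def, Pi.zero_apply, Pi.one_apply, Int.cast_neg]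
    refine ⟨fun i => ?_, fun i => ?_⟩
    · have := Int.floor_le (x i)
      linarith
    · have := Int.lt_floor_add_one (x i)
      linarith

end Vale.Agent.P113
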