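import Mathlib

/-!
# Halting detection by particle trajectories of forced flows: definitions

Every definition used by the main theorem of this folder is collected here.
-/

namespace Vale.Agent.P113

open MeasureTheory Set
open scoped ContDiff

/-- A rational number, given by its numerator and its denominator minus one. -/
abbrev RatCode := ℤ × ℕ

/-- The real number coded by a `RatCode`. -/
noncomputable def RatCode.val (q : RatCode) : ℝ := (q.1 : ℝ) / ((q.2 : ℝ) + 1)

/-- `ρ(s) = exp(-1/(1-s²))` for `|s| < 1` and `0` otherwise. -/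
noncomputable def rho (s : ℝ) : ℝ := if |s| < 1 then Real.exp (-1 / (1 - s ^ 2)) else 0

/-- `κ = ∫ ρ`. -/
noncomputable def kappa : ℝ := ∫ s, rho s

/-- `σ(s) = ∫_{-∞}^s ρ`. -/
noncomputable def sigma (s : ℝ) : ℝ := ∫ r in Iic s, rho r

/-- `π_ℓ(s) = σ(s) - σ(s - ℓ)`. -/
noncomputable def piEll (l s : ℝ) : ℝ := sigma s - sigma (s - l)

/-- The profile of a bump: `inl j` stands for `ρ^(j)` and `inr ℓ` for `π_ℓ`. -/
abbrev Profile := ℕ ⊕ RatCode

/-- The function coded by a profile. -/
noncomputable def profileVal : Profile → ℝ → ℝ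
  | Sum.inl j => iteratedDeriv j rho
  | Sum.inr l => piEll l.val

/-- A bump: a profile `g`, an exponent `k` and two rationals `a`, `b`. -/
abbrev BumpCode := Profile × ℕ × RatCode × RatCode

/-- The bump `s ↦ s^k g(a s - b)`. -/
noncomputable def bumpVal : BumpCode → ℝ → ℝ
  | (g, k, a, b), s => s ^ k * profileVal g (a.val * s - b.val)

/-- A bump code is valid when `a ≠ 0` and, for a plateau, `ℓ > 0`. -/
def bumpValid : BumpCode → Prop
  | (Sum.inl _, _, a, _) => a.val ≠ 0
  | (Sum.inr l, _, a, _) => a.val ≠ 0 ∧ 0 < l.val

/-- `P[g](y) = ∑_{m ∈ ℤ} g(y + m)`. -/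
noncomputable def periodize (g : ℝ → ℝ) (y : ℝ) : ℝ := ∑' m : ℤ, g (y + (m : ℝ))

/-- A time factor: `(true, g)` stands for `P[g](t)` and `(false, g)` for `g(t)`. -/
abbrev TimeFactor := Bool × BumpCode

/-- The function coded by a time factor. -/
noncomputable def timeFactorVal : TimeFactor → ℝ → ℝ
  | (true, g), t => periodize (bumpVal g) t
  | (false, g), t => bumpVal g t

/-- A term `(q, m, n, [r_i], θ, (h_1, h_2, h_3))` with `θ` and each `h_i` given by lists of
factors, the empty list standing for the constant `1`. -/
abbrev TermCode :=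
  RatCode × ℕ × ℤ × List RatCode × List TimeFactor × (List BumpCode × List BumpCode × List BumpCode)

/-- A point of `ℝ³`; functions on the torus are the `ℤ³`-periodic functions of a point. -/
abbrev Point := Fin 3 → ℝ

/-- The translation of a point by an integer vector. -/
def shiftBy (k : Fin 3 → ℤ) (x : Point) : Point := fun i => x i + (k i : ℝ)

/-- A product of periodizations of bumps. -/
noncomputable def spaceFactorVal (h : List BumpCode) (y : ℝ) : ℝ :=
  (h.map fun g => periodize (bumpVal g) y).prod

/-- The value `q ν^m κ^n ∏ ln r_i · θ(t) h₁(x₁) h₂(x₂) h₃(x₃)` of a term. -/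
noncomputable def termVal (nu t : ℝ) (x : Point) : TermCode → ℝ
  | (q, m, n, rs, th, h1, h2, h3) =>
      q.val * nu ^ m * kappa ^ n * (rs.map fun r => Real.log r.val).prod *
        (th.map fun g => timeFactorVal g t).prod *
        (spaceFactorVal h1 (x 0) * spaceFactorVal h2 (x 1) * spaceFactorVal h3 (x 2))

/-- A term code is valid: every bump is valid and every `r_i` is positive. -/
def termValid : TermCode → Prop
  | (_, _, _, rs, th, h1, h2, h3) =>
      (∀ r ∈ rs, 0 < r.val) ∧ (∀ g ∈ th, bumpValid g.2) ∧
        ∀ g ∈ h1 ++ h2 ++ h3, bumpValid g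

/-- A term is periodic when `θ` is `1` or a product of periodizations only. -/
def isPeriodicTerm : TermCode → Bool
  | (_, _, _, _, th, _) => th.all Prod.fst

/-- The three lists of terms which give the three components of a force. -/
abbrev ForceCode := List TermCode × List TermCode × List TermCode

/-- The list of terms of component `i`. -/
def componentList (F : ForceCode) : Fin 3 → List TermCode := ![F.1, F.2.1, F.2.2]

/-- The force coded by three lists of terms. -/
noncomputable def forceVal (F : ForceCode) (nu t : ℝ) (x : Point) : Point :=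
  fun i => ((componentList F i).map (termVal nu t x)).sum

/-- The sublists of periodic terms. -/
def periodicPart (F : ForceCode) : ForceCode :=
  (F.1.filter isPeriodicTerm, F.2.1.filter isPeriodicTerm, F.2.2.filter isPeriodicTerm)

/-- A machine `(start state, halting states, table)`: states and symbols are natural numbers, the
blank is `0`, and a table entry `((q, a), (q', a', d))` says that in state `q` reading `a` the
machine goes to state `q'`, writes `a'`, and stays (`none`), moves left (`some false`) or moves
right (`some true`). Only finitely many states and symbols occur in a machine. -/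
abbrev Machine := ℕ × List ℕ × List ((ℕ × ℕ) × (ℕ × ℕ × Option Bool))

/-- A configuration: a state and a two-sided tape with a head. -/
abbrev Config := ℕ × Turing.Tape ℕ

/-- One step of a machine; the first matching table entry is used, and a configuration which is
halting or has no matching entry stays as it is. -/
def Machine.step (M : Machine) (c : Config) : Config :=
  if c.1 ∈ M.2.1 then c
  else match M.2.2.lookup (c.1, c.2.head) with
    | none => c
    | some (q', a', none) => (q', c.2.write a')
    | some (q', a', some false) => (q', (c.2.write a').move Turing.Dir.left)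
    | some (q', a', some true) => (q', (c.2.write a').move Turing.Dir.right)

/-- `M` halts on `w`: from the start state, with `w` on an otherwise blank tape and the head on
its first cell, a halting state is reached after finitely many steps. -/
def Machine.Halts (M : Machine) (w : List ℕ) : Prop :=
  ∃ n : ℕ, (M.step^[n] (M.1, Turing.Tape.mk₁ w)).1 ∈ M.2.1

/-- `(u, p)` is a classical solution on `[0,T] × 𝕋³` of the Navier-Stokes system with viscosity
`nu` and force `f`, starting from rest: periodic, the derivatives exist and are continuous, the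
equations hold pointwise and `p` has spatial mean zero. -/
def IsClassicalSolution (nu T : ℝ) (f : ℝ → Point → Point) (u : ℝ → Point → Point)
    (p : ℝ → Point → ℝ) : Prop :=
  (∀ x, u 0 x = 0) ∧
  (∀ t ∈ Icc (0 : ℝ) T, ∀ x k, u t (shiftBy k x) = u t x ∧ p t (shiftBy k x) = p t x) ∧
  (∀ t ∈ Icc (0 : ℝ) T, ∫ x in Icc (0 : Point) 1, p t x = 0) ∧
  ∃ (ut : ℝ → Point → Point) (du : ℝ → Point → Fin 3 → Point)
    (ddu : ℝ → Point → Fin 3 → Fin 3 → Point) (dp : ℝ → Point → Point),
    ContinuousOn (Function.uncurry u) (Icc (0 : ℝ) T ×ˢ univ) ∧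
    ContinuousOn (Function.uncurry ut) (Icc (0 : ℝ) T ×ˢ univ) ∧
    ContinuousOn (Function.uncurry du) (Icc (0 : ℝ) T ×ˢ univ) ∧
    ContinuousOn (Function.uncurry ddu) (Icc (0 : ℝ) T ×ˢ univ) ∧
    ContinuousOn (Function.uncurry p) (Icc (0 : ℝ) T ×ˢ univ) ∧
    ContinuousOn (Function.uncurry dp) (Icc (0 : ℝ) T ×ˢ univ) ∧
    ∀ t ∈ Icc (0 : ℝ) T, ∀ x : Point,
      HasDerivWithinAt (fun s => u s x) (ut t x) (Icc (0 : ℝ) T) t ∧
      (∀ j, HasDerivAt (fun s => u t (Function.update x j s)) (du t x j) (x j)) ∧
      (∀ j k, HasDerivAt (fun s => du t (Function.update x k s) j) (ddu t x j k) (x k)) ∧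
      (∀ j, HasDerivAt (fun s => p t (Function.update x j s)) (dp t x j) (x j)) ∧
      (∑ j, du t x j j = 0) ∧
      ∀ i, ut t x i + ∑ j, u t x j * du t x j i
        = -dp t x i + nu * ∑ j, ddu t x j j i + f t x i

/-- `X` is the trajectory of the point `a` for the velocity field `u`, lifted to `ℝ³`. -/
def IsTrajectory (u : ℝ → Point → Point) (a : Point) (X : ℝ → Point) : Prop :=
  X 0 = a ∧ ∀ t, 0 ≤ t → HasDerivWithinAt X (u t (X t)) (Ici 0) t

/-- The set of all lifts of the torus image of the open box with corners `lo` and `hi`. -/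
def boxOnTorus (lo hi : Fin 3 → ℚ) : Set Point :=
  {x | ∃ k : Fin 3 → ℤ, ∀ i, (lo i : ℝ) < x i + k i ∧ x i + k i < (hi i : ℝ)}

set_option synthInstance.maxSize 2000 in
/-- The product coding of force codes by natural numbers. -/
instance instPrimcodableForceCode : Primcodable ForceCode := inferInstance

/-- The property asked of a force compiler, for the viscosity `nu`. -/
def Detects (a : Fin 3 → ℚ) (lo hi : Fin 3 → ℚ) (compile : Machine × List ℕ → ForceCode)
    (nu : ℝ) (M : Machine) (w : List ℕ) : Prop :=
  ∃ (u : ℝ → Point → Point) (p : ℝ → Point → ℝ),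
    ContDiff ℝ ∞ (Function.uncurry (forceVal (compile (M, w)) nu)) ∧
    ContDiff ℝ ∞ (Function.uncurry u) ∧ ContDiff ℝ ∞ (Function.uncurry p) ∧
    (∀ T, 0 < T → IsClassicalSolution nu T (forceVal (compile (M, w)) nu) u p) ∧
    (∀ T, 0 < T → ∀ v q, IsClassicalSolution nu T (forceVal (compile (M, w)) nu) v q →
      ∀ t ∈ Icc (0 : ℝ) T, ∀ x, v t x = u t x ∧ q t x = p t x) ∧
    ∃ X, IsTrajectory u (fun i => (a i : ℝ)) X ∧
      (∀ Y, IsTrajectory u (fun i => (a i : ℝ)) Y → ∀ t, 0 ≤ t → Y t = X t) ∧
      ((∃ t, 0 ≤ t ∧ X t ∈ boxOnTorus lo hi) ↔ M.Halts w)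

/-- `compile` is a force compiler with common time `T0`: it is computable, lists only valid
terms, its terms which are not periodic vanish from `T0` on, and its periodic terms depend on the
machine only. -/
def IsForceCompiler (T0 : ℝ) (compile : Machine × List ℕ → ForceCode) : Prop :=
  Computable compile ∧
    (∀ M w, ∀ i, ∀ τ ∈ componentList (compile (M, w)) i, termValid τ ∧
      (isPeriodicTerm τ = false → ∀ nu t x, T0 ≤ t → termVal nu t x τ = 0)) ∧
    ∀ M w w', periodicPart (compile (M, w)) = periodicPart (compile (M, w'))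

end Vale.Agent.P113
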