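import Vale.Agent.P113.Defs

/-!
# Numbers with prescribed leading digits in base `2 D`
-/

namespace Vale.Agent.P113

/-- The number `0.d₁ d₂ …` in base `2 D`. -/
def digVal (D : ℕ) : List ℕ → ℚ
  | [] => 0
  | d :: l => ((d : ℚ) + digVal D l) / (2 * D)

/-- All digits are less than `D`. -/
def DigitsOK (D : ℕ) (l : List ℕ) : Prop := ∀ d ∈ l, d < D

/-- The lists differ at some common position. -/
def Differ : List ℕ → List ℕ → Prop
  | a :: l, b :: l' => a ≠ b ∨ Differ l l'
  | _, _ => False

theorem DigitsOK.cons {D d : ℕ} {l : List ℕ} (h : d < D) (hl : DigitsOK D l) :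
    DigitsOK D (d :: l) := List.forall_mem_cons.2 ⟨h, hl⟩

theorem DigitsOK.append {D : ℕ} {l l' : List ℕ} (hl : DigitsOK D l) (hl' : DigitsOK D l') :
    DigitsOK D (l ++ l') := List.forall_mem_append.2 ⟨hl, hl'⟩

theorem digVal_nonneg (D : ℕ) : ∀ l, 0 ≤ digVal D l
  | [] => le_rfl
  | d :: l => by
    have := digVal_nonneg D l
    simp only [digVal]; positivity

theorem digVal_append (D : ℕ) : ∀ p l : List ℕ,
    digVal D (p ++ l) = digVal D p + (1 / (2 * D : ℚ)) ^ p.length * digVal D l
  | [], l => by simp [digVal]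
  | d :: p, l => by
    simp only [List.cons_append, digVal, digVal_append D p l, List.length_cons, pow_succ]
    ring

theorem digVal_upper {D : ℕ} (hD : 0 < D) : ∀ {p : List ℕ}, DigitsOK D p →
    digVal D p + (1 / (2 * D : ℚ)) ^ p.length * (1 / 2) ≤ 1 / 2
  | [], _ => by simp [digVal]
  | d :: p, h => by
    obtain ⟨hd, hp⟩ := List.forall_mem_cons.1 h
    have ih := digVal_upper hD hp
    have hd' : (d : ℚ) + 1 ≤ D := by exact_mod_cast hd
    have hD' : (0 : ℚ) < 2 * D := by positivity
    simp only [digVal, List.length_cons, pow_succ]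
    rw [show ((d : ℚ) + digVal D p) / (2 * D) + (1 / (2 * D)) ^ p.length * (1 / (2 * D)) * (1 / 2)
      = ((d : ℚ) + (digVal D p + (1 / (2 * D)) ^ p.length * (1 / 2))) / (2 * D) by ring,
      div_le_iff₀ hD']
    linarith

theorem digVal_le {D : ℕ} (hD : 0 < D) {l : List ℕ} (h : DigitsOK D l) : digVal D l ≤ 1 / 2 := by
  have := digVal_upper hD h
  have h2 : (0 : ℚ) ≤ (1 / (2 * D : ℚ)) ^ l.length * (1 / 2) := by positivity
  linarith

/-- Lists which differ give separated intervals. -/
theorem digVal_differ {D : ℕ} (hD : 0 < D) : ∀ {p q : List ℕ}, DigitsOK D p → DigitsOK D q →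
    Differ p q →
    digVal D p + (1 / (2 * D : ℚ)) ^ p.length * (1 / 2) < digVal D q ∨
    digVal D q + (1 / (2 * D : ℚ)) ^ q.length * (1 / 2) < digVal D p
  | [], _, _, _, h => by simp [Differ] at h
  | _ :: _, [], _, _, h => by simp [Differ] at h
  | a :: p, b :: q, hp, hq, h => by
    obtain ⟨ha, hp'⟩ := List.forall_mem_cons.1 hp
    obtain ⟨hb, hq'⟩ := List.forall_mem_cons.1 hq
    have hD' : (0 : ℚ) < 2 * D := by positivity
    have up := digVal_upper hD hp'
    have uq := digVal_upper hD hq'
    have np := digVal_nonneg D p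
    have nq := digVal_nonneg D q
    simp only [digVal, List.length_cons, pow_succ]
    rw [show ((a : ℚ) + digVal D p) / (2 * D) + (1 / (2 * D)) ^ p.length * (1 / (2 * D)) * (1 / 2)
        = ((a : ℚ) + (digVal D p + (1 / (2 * D)) ^ p.length * (1 / 2))) / (2 * D) by ring,
      show ((b : ℚ) + digVal D q) / (2 * D) + (1 / (2 * D)) ^ q.length * (1 / (2 * D)) * (1 / 2)
        = ((b : ℚ) + (digVal D q + (1 / (2 * D)) ^ q.length * (1 / 2))) / (2 * D) by ring,
      div_lt_div_iff_of_pos_right hD', div_lt_div_iff_of_pos_right hD']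
    rcases lt_trichotomy a b with hab | hab | hab
    · left
      have : (a : ℚ) + 1 ≤ b := by exact_mod_cast hab
      linarith
    · subst hab
      rcases digVal_differ hD hp' hq' (h.resolve_left (fun h => h rfl)) with h' | h'
      · left; linarith
      · right; linarith
    · right
      have : (b : ℚ) + 1 ≤ a := by exact_mod_cast hab
      linarith

end Vale.Agent.P113
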