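import Vale.Agent.P113.Simulation

/-!
# The rules as rectangles, and the points of configurations
-/

namespace Vale.Agent.P113

open Turing Set

section

set_option linter.unusedSectionVars false

variable {Q G : Type} [Fintype Q] [Fintype G] [Inhabited G]
  (δ : Q → G → Option (Q × TM0.Stmt G))

/-- The number of control states. -/
def numCtrl (Q G : Type) [Fintype Q] [Fintype G] : ℕ := Fintype.card (Ctrl Q G)

/-- The width of a state block. -/
def width (Q G : Type) [Fintype Q] [Fintype G] : ℚ := 1 / (8 * (numCtrl Q G + 1))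

open Classical in
/-- The left end of a state block: running states below `1/4`, the halting state at `5/8`. -/
noncomputable def block (c : Ctrl Q G) : ℚ :=
  if c = cHalt then 5 / 8 else 2 * ((Fintype.equivFin (Ctrl Q G) c : ℕ) : ℚ) * width Q G

theorem width_pos (Q G : Type) [Fintype Q] [Fintype G] : 0 < width Q G := by
  unfold width; positivity

theorem width_le (Q G : Type) [Fintype Q] [Fintype G] : width Q G ≤ 1 / 8 := by
  unfold width
  rw [div_le_div_iff₀ (by positivity) (by norm_num)]
  have : (0 : ℚ) ≤ numCtrl Q G := Nat.cast_nonneg _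
  linarith

theorem block_run {c : Ctrl Q G} (h : c ≠ cHalt) :
    0 ≤ block c ∧ block c + width Q G ≤ 1 / 4 := by
  have hw := width_pos Q G
  rw [block, if_neg h]
  have hi : ((Fintype.equivFin (Ctrl Q G) c : ℕ) : ℚ) + 1 ≤ numCtrl Q G + 1 := by
    have := (Fintype.equivFin (Ctrl Q G) c).isLt
    unfold numCtrl
    exact_mod_cast (by omega : (Fintype.equivFin (Ctrl Q G) c : ℕ) + 1 ≤ Fintype.card (Ctrl Q G) + 1)
  have hN : width Q G * (8 * (numCtrl Q G + 1)) = 1 := by unfold width; field_simp
  constructor
  · positivity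
  · nlinarith

theorem block_sep {c c' : Ctrl Q G} (h : c ≠ c') :
    block c + width Q G < block c' ∨ block c' + width Q G < block c := by
  have hw := width_pos Q G
  have hw' := width_le Q G
  by_cases h1 : c = cHalt
  · subst h1
    have := block_run (Ne.symm h)
    right; rw [show block (cHalt : Ctrl Q G) = 5 / 8 by simp [block]]; linarith
  by_cases h2 : c' = cHalt
  · subst h2
    have := block_run h1
    left; rw [show block (cHalt : Ctrl Q G) = 5 / 8 by simp [block]]; linarith
  simp only [block, if_neg h1, if_neg h2]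
  rcases lt_or_gt_of_ne (fun hh => h ((Fintype.equivFin (Ctrl Q G)).injective (Fin.ext hh)) :
      (Fintype.equivFin (Ctrl Q G) c : ℕ) ≠ (Fintype.equivFin (Ctrl Q G) c' : ℕ)) with h3 | h3
  · left
    have h4 : ((Fintype.equivFin (Ctrl Q G) c : ℕ) : ℚ) + 1 ≤
        ((Fintype.equivFin (Ctrl Q G) c' : ℕ) : ℚ) := by exact_mod_cast h3
    nlinarith
  · right
    have h4 : ((Fintype.equivFin (Ctrl Q G) c' : ℕ) : ℚ) + 1 ≤
        ((Fintype.equivFin (Ctrl Q G) c : ℕ) : ℚ) := by exact_mod_cast h3
    nlinarith

/-- The scaling of a prefix of a given length. -/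
def scale (Q G : Type) [Fintype Q] [Fintype G] (p : List ℕ) : ℚ :=
  (1 / (2 * numDigits Q G : ℚ)) ^ p.length

theorem scale_pos (p : List ℕ) : 0 < scale Q G p := by
  have : (0 : ℚ) < numDigits Q G := by exact_mod_cast (special_lt Q G).2.2.2
  unfold scale; positivity

/-- The first coordinate of a configuration. -/
noncomputable def xVal (c : Ctrl Q G) (l : List ℕ) : ℚ :=
  block c + width Q G * digVal (numDigits Q G) l

/-- The rectangle rule of a stack rule. -/
noncomputable def rectRule (i : RuleId Q G) : Rule where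
  lx := xVal (stackRule δ i).s (stackRule δ i).l
  hx := xVal (stackRule δ i).s (stackRule δ i).l + width Q G * (scale Q G (stackRule δ i).l * (1 / 2))
  ly := digVal (numDigits Q G) (stackRule δ i).r
  hy := digVal (numDigits Q G) (stackRule δ i).r + scale Q G (stackRule δ i).r * (1 / 2)
  a := scale Q G (stackRule δ i).l' / scale Q G (stackRule δ i).l
  b := xVal (stackRule δ i).s' (stackRule δ i).l' -
    scale Q G (stackRule δ i).l' / scale Q G (stackRule δ i).l *
      xVal (stackRule δ i).s (stackRule δ i).l
  c := scale Q G (stackRule δ i).r' / scale Q G (stackRule δ i).r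
  e := digVal (numDigits Q G) (stackRule δ i).r' -
    scale Q G (stackRule δ i).r' / scale Q G (stackRule δ i).r *
      digVal (numDigits Q G) (stackRule δ i).r

theorem box_bounds (c : Ctrl Q G) {l r : List ℕ} (hl : DigitsOK (numDigits Q G) l)
    (hr : DigitsOK (numDigits Q G) r) :
    0 ≤ xVal c l ∧ xVal c l + width Q G * (scale Q G l * (1 / 2)) ≤ 7 / 8 ∧
    0 ≤ digVal (numDigits Q G) r ∧
    digVal (numDigits Q G) r + scale Q G r * (1 / 2) ≤ 7 / 8 := by
  have hD := (special_lt Q G).2.2.2
  have h1 := digVal_upper hD hl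
  have h2 := digVal_upper hD hr
  have h3 := digVal_nonneg (numDigits Q G) l
  have hw := width_pos Q G
  have hw' := width_le Q G
  have hs := scale_pos (Q := Q) (G := G) l
  have hb : 0 ≤ block c ∧ block c ≤ 5 / 8 := by
    by_cases h : c = cHalt
    · subst h; simp [block]; norm_num
    · have := block_run h
      constructor <;> linarith
  have h1' : digVal (numDigits Q G) l + scale Q G l * (1 / 2) ≤ 1 / 2 := h1
  have h5 : width Q G * (digVal (numDigits Q G) l + scale Q G l * (1 / 2)) ≤ 1 / 8 * (1 / 2) := by
    refine mul_le_mul hw' h1' ?_ (by norm_num)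
    positivity
  refine ⟨by unfold xVal; have := hb.1; positivity, ?_, digVal_nonneg _ _, ?_⟩
  · unfold xVal; linarith [hb.2, h5, mul_add (width Q G) (digVal (numDigits Q G) l)
      (scale Q G l * (1 / 2))]
  · have h2' : digVal (numDigits Q G) r + scale Q G r * (1 / 2) ≤ 1 / 2 := h2
    linarith

theorem box_sep {c c' : Ctrl Q G} {l l' r r' : List ℕ} (hl : DigitsOK (numDigits Q G) l)
    (hl' : DigitsOK (numDigits Q G) l') (hr : DigitsOK (numDigits Q G) r)
    (hr' : DigitsOK (numDigits Q G) r') (h : c ≠ c' ∨ Differ l l' ∨ Differ r r') :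
    xVal c l + width Q G * (scale Q G l * (1 / 2)) < xVal c' l' ∨
    xVal c' l' + width Q G * (scale Q G l' * (1 / 2)) < xVal c l ∨
    digVal (numDigits Q G) r + scale Q G r * (1 / 2) < digVal (numDigits Q G) r' ∨
    digVal (numDigits Q G) r' + scale Q G r' * (1 / 2) < digVal (numDigits Q G) r := by
  have hD := (special_lt Q G).2.2.2
  have hw := width_pos Q G
  by_cases hc : c = c'
  · subst hc
    rcases h with h | h | h
    · exact absurd rfl h
    · rcases digVal_differ hD hl hl' h with h' | h'
      · left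
        have := mul_lt_mul_of_pos_left h' hw
        unfold xVal scale; linarith
      · right; left
        have := mul_lt_mul_of_pos_left h' hw
        unfold xVal scale; linarith
    · rcases digVal_differ hD hr hr' h with h' | h'
      · exact Or.inr (Or.inr (Or.inl h'))
      · exact Or.inr (Or.inr (Or.inr h'))
  · have u1 : digVal (numDigits Q G) l + scale Q G l * (1 / 2) ≤ 1 / 2 := digVal_upper hD hl
    have u2 : digVal (numDigits Q G) l' + scale Q G l' * (1 / 2) ≤ 1 / 2 := digVal_upper hD hl'
    have n1 := mul_nonneg hw.le (digVal_nonneg (numDigits Q G) l)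
    have n2 := mul_nonneg hw.le (digVal_nonneg (numDigits Q G) l')
    have m1 := mul_le_mul_of_nonneg_left u1 hw.le
    have m2 := mul_le_mul_of_nonneg_left u2 hw.le
    rcases block_sep hc with h' | h'
    · left; unfold xVal; linarith
    · right; left; unfold xVal; linarith

theorem rectRule_image (i : RuleId Q G) :
    (rectRule δ i).a * (rectRule δ i).lx + (rectRule δ i).b
        = xVal (stackRule δ i).s' (stackRule δ i).l' ∧
    (rectRule δ i).a * (rectRule δ i).hx + (rectRule δ i).b
        = xVal (stackRule δ i).s' (stackRule δ i).l'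
          + width Q G * (scale Q G (stackRule δ i).l' * (1 / 2)) ∧
    (rectRule δ i).c * (rectRule δ i).ly + (rectRule δ i).e
        = digVal (numDigits Q G) (stackRule δ i).r' ∧
    (rectRule δ i).c * (rectRule δ i).hy + (rectRule δ i).e
        = digVal (numDigits Q G) (stackRule δ i).r' + scale Q G (stackRule δ i).r' * (1 / 2) := by
  have h1 := (scale_pos (Q := Q) (G := G) (stackRule δ i).l).ne'
  have h2 := (scale_pos (Q := Q) (G := G) (stackRule δ i).r).ne'
  simp only [rectRule]
  refine ⟨by ring, ?_, by ring, ?_⟩ <;> field_simp <;> ring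

/-- The family of rectangle rules. -/
noncomputable def machineRules : Rules where
  N := Fintype.card (RuleId Q G)
  rule k := rectRule δ ((Fintype.equivFin (RuleId Q G)).symm k)
  ha k := div_pos (scale_pos _) (scale_pos _)
  hc k := div_pos (scale_pos _) (scale_pos _)
  src k := by
    obtain ⟨o1, o2, -, -⟩ := stackRule_ok δ ((Fintype.equivFin (RuleId Q G)).symm k)
    obtain ⟨b1, b2, b3, b4⟩ := box_bounds
      (stackRule δ ((Fintype.equivFin (RuleId Q G)).symm k)).s o1 o2
    refine ⟨b1, ?_, b2, b3, ?_, b4⟩
    · exact le_add_of_nonneg_right (mul_nonneg (width_pos Q G).le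
        (mul_nonneg (scale_pos _).le (by norm_num)))
    · exact le_add_of_nonneg_right (mul_nonneg (scale_pos _).le (by norm_num))
  tgt k := by
    obtain ⟨-, -, o3, o4⟩ := stackRule_ok δ ((Fintype.equivFin (RuleId Q G)).symm k)
    obtain ⟨b1, b2, b3, b4⟩ := box_bounds
      (stackRule δ ((Fintype.equivFin (RuleId Q G)).symm k)).s' o3 o4
    obtain ⟨e1, e2, e3, e4⟩ := rectRule_image δ ((Fintype.equivFin (RuleId Q G)).symm k)
    rw [e1, e2, e3, e4]
    exact ⟨b1, b2, b3, b4⟩
  srcDisj i j h := by
    obtain ⟨o1, o2, -, -⟩ := stackRule_ok δ ((Fintype.equivFin (RuleId Q G)).symm i)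
    obtain ⟨p1, p2, -, -⟩ := stackRule_ok δ ((Fintype.equivFin (RuleId Q G)).symm j)
    exact box_sep o1 p1 o2 p2 (stackRule_src_sep δ _ _
      ((Fintype.equivFin (RuleId Q G)).symm.injective.ne h))
  tgtDisj i j h := by
    obtain ⟨-, -, o1, o2⟩ := stackRule_ok δ ((Fintype.equivFin (RuleId Q G)).symm i)
    obtain ⟨-, -, p1, p2⟩ := stackRule_ok δ ((Fintype.equivFin (RuleId Q G)).symm j)
    obtain ⟨e1, e2, e3, e4⟩ := rectRule_image δ ((Fintype.equivFin (RuleId Q G)).symm i)
    obtain ⟨f1, f2, f3, f4⟩ := rectRule_image δ ((Fintype.equivFin (RuleId Q G)).symm j)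
    rw [e1, e2, e3, e4, f1, f2, f3, f4]
    exact box_sep o1 p1 o2 p2 (stackRule_tgt_sep δ _ _
      ((Fintype.equivFin (RuleId Q G)).symm.injective.ne h))

/-- The point of a configuration. -/
noncomputable def cfgPoint (c : Ctrl Q G) (l r : List ℕ) : Point :=
  Rules.flat (xVal c l : ℝ) (digVal (numDigits Q G) r : ℝ)

theorem exists_machineShears : ∃ S : Shears, ∀ (i : RuleId Q G) (l r : List ℕ),
    DigitsOK (numDigits Q G) l → DigitsOK (numDigits Q G) r →
    S.stepPoint (cfgPoint (stackRule δ i).s ((stackRule δ i).l ++ l) ((stackRule δ i).r ++ r))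
      = cfgPoint (stackRule δ i).s' ((stackRule δ i).l' ++ l) ((stackRule δ i).r' ++ r) ∧
    ∀ k : ℕ,
      S.mid (cfgPoint (stackRule δ i).s ((stackRule δ i).l ++ l) ((stackRule δ i).r ++ r)) k 0
          = (xVal (stackRule δ i).s ((stackRule δ i).l ++ l) : ℝ) ∨
      S.mid (cfgPoint (stackRule δ i).s ((stackRule δ i).l ++ l) ((stackRule δ i).r ++ r)) k 0
          ∈ Icc (1 / 16 : ℝ) (3 / 16) ∨
      S.mid (cfgPoint (stackRule δ i).s ((stackRule δ i).l ++ l) ((stackRule δ i).r ++ r)) k 0
          = (xVal (stackRule δ i).s' ((stackRule δ i).l' ++ l) : ℝ) := by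
  obtain ⟨S, hS⟩ := (machineRules δ).exists_shears
  refine ⟨S, fun i l r hl hr => ?_⟩
  have hrule : (machineRules δ).rule (Fintype.equivFin (RuleId Q G) i) = rectRule δ i := by
    show rectRule δ ((Fintype.equivFin (RuleId Q G)).symm _) = _
    rw [Equiv.symm_apply_apply]
  have hD := (special_lt Q G).2.2.2
  have hw := width_pos Q G
  have nl := digVal_nonneg (numDigits Q G) l
  have nr := digVal_nonneg (numDigits Q G) r
  have ul := digVal_le hD hl
  have ur := digVal_le hD hr
  have sl := scale_pos (Q := Q) (G := G) (stackRule δ i).l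
  have sr := scale_pos (Q := Q) (G := G) (stackRule δ i).r
  have ex : ∀ (c : Ctrl Q G) (p : List ℕ), xVal c (p ++ l)
      = xVal c p + width Q G * scale Q G p * digVal (numDigits Q G) l := fun c p => by
    simp only [xVal, digVal_append, scale]; ring
  have ey : ∀ p : List ℕ, digVal (numDigits Q G) (p ++ r)
      = digVal (numDigits Q G) p + scale Q G p * digVal (numDigits Q G) r := fun p => by
    simp only [digVal_append, scale]
  have q1 : (rectRule δ i).lx ≤ xVal (stackRule δ i).s ((stackRule δ i).l ++ l) := by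
    rw [ex]; exact le_add_of_nonneg_right (by positivity)
  have q2 : xVal (stackRule δ i).s ((stackRule δ i).l ++ l) ≤ (rectRule δ i).hx := by
    rw [ex]; simp only [rectRule]
    have : width Q G * scale Q G (stackRule δ i).l * digVal (numDigits Q G) l
        ≤ width Q G * scale Q G (stackRule δ i).l * (1 / 2) :=
      mul_le_mul_of_nonneg_left ul (by positivity)
    linarith
  have q3 : (rectRule δ i).ly ≤ digVal (numDigits Q G) ((stackRule δ i).r ++ r) := by
    rw [ey]; exact le_add_of_nonneg_right (by positivity)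
  have q4 : digVal (numDigits Q G) ((stackRule δ i).r ++ r) ≤ (rectRule δ i).hy := by
    rw [ey]; simp only [rectRule]
    have : scale Q G (stackRule δ i).r * digVal (numDigits Q G) r
        ≤ scale Q G (stackRule δ i).r * (1 / 2) := mul_le_mul_of_nonneg_left ur sr.le
    linarith
  have tx : (rectRule δ i).a * xVal (stackRule δ i).s ((stackRule δ i).l ++ l) + (rectRule δ i).b
      = xVal (stackRule δ i).s' ((stackRule δ i).l' ++ l) := by
    rw [ex, ex]; simp only [rectRule]; field_simp; ring
  have ty : (rectRule δ i).c * digVal (numDigits Q G) ((stackRule δ i).r ++ r) + (rectRule δ i).e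
      = digVal (numDigits Q G) ((stackRule δ i).r' ++ r) := by
    rw [ey, ey]; simp only [rectRule]; field_simp; ring
  obtain ⟨h1, h2⟩ := hS (Fintype.equivFin (RuleId Q G) i)
    (xVal (stackRule δ i).s ((stackRule δ i).l ++ l) : ℝ)
    (digVal (numDigits Q G) ((stackRule δ i).r ++ r) : ℝ)
    (by rw [hrule]; exact_mod_cast q1) (by rw [hrule]; exact_mod_cast q2)
    (by rw [hrule]; exact_mod_cast q3) (by rw [hrule]; exact_mod_cast q4)
  have tx' := congrArg (fun q : ℚ => (q : ℝ)) tx
  have ty' := congrArg (fun q : ℚ => (q : ℝ)) ty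
  push_cast at tx' ty'
  rw [hrule, tx', ty'] at h1
  refine ⟨h1, fun k => ?_⟩
  have := h2 k
  rw [hrule, tx'] at this
  exact this

end

end Vale.Agent.P113
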