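import Vale.Agent.P113.Cube

/-!
# Uniqueness of classical solutions by the energy method
-/

namespace Vale.Agent.P113

open MeasureTheory Set

section Gronwall

/-- An integral inequality `E(t) = ∫₀ᵗ D`, `D ≤ C E`, `E ≥ 0` forces `E = 0`. -/
theorem eq_zero_of_energy {T C : ℝ} {E D : ℝ → ℝ} (hD : Continuous D)
    (hE : ∀ t ∈ Icc 0 T, E t = ∫ s in (0 : ℝ)..t, D s) (hle : ∀ t ∈ Icc 0 T, D t ≤ C * E t)
    (hpos : ∀ t ∈ Icc 0 T, 0 ≤ E t) (t : ℝ) (ht : t ∈ Icc 0 T) : E t = 0 := by
  set F : ℝ → ℝ := fun t => (∫ s in (0 : ℝ)..t, D s) * Real.exp (-C * t) with hF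
  have hd : ∀ s, HasDerivAt F (D s * Real.exp (-C * s) +
      (∫ r in (0 : ℝ)..s, D r) * (Real.exp (-C * s) * (-C * 1))) s := fun s =>
    (hD.integral_hasStrictDerivAt 0 s).hasDerivAt.mul (((hasDerivAt_id s).const_mul (-C)).exp)
  have hanti : AntitoneOn F (Icc 0 T) := by
    refine antitoneOn_of_hasDerivWithinAt_nonpos (convex_Icc 0 T)
      (fun s _ => (hd s).continuousAt.continuousWithinAt) (fun s _ => (hd s).hasDerivWithinAt)
      fun s hs => ?_
    have hs' := interior_subset hs
    have h1 := hle s hs'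
    rw [hE s hs'] at h1
    have h2 := Real.exp_pos (-C * s)
    nlinarith [mul_le_mul_of_nonneg_right h1 h2.le]
  have h1 := hanti ⟨le_rfl, ht.1.trans ht.2⟩ ht ht.1
  simp only [hF, intervalIntegral.integral_same, zero_mul] at h1
  rw [← hE t ht] at h1
  have h2 := Real.exp_pos (-C * t)
  have h3 := hpos t ht
  nlinarith

end Gronwall

/-- The data of a classical solution, with its derivatives extended continuously to all times. -/
structure SolData (nu T : ℝ) (f : ℝ → Point → Point) where
  /-- velocity -/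
  u : ℝ → Point → Point
  /-- pressure -/
  p : ℝ → Point → ℝ
  /-- time derivative -/
  ut : ℝ → Point → Point
  /-- first space derivatives -/
  du : ℝ → Point → Fin 3 → Point
  /-- second space derivatives -/
  ddu : ℝ → Point → Fin 3 → Fin 3 → Point
  /-- pressure gradient -/
  dp : ℝ → Point → Point
  cu : Continuous (Function.uncurry u)
  cut : Continuous (Function.uncurry ut)
  cdu : Continuous (Function.uncurry du)
  cddu : Continuous (Function.uncurry ddu)
  cp : Continuous (Function.uncurry p)
  cdp : Continuous (Function.uncurry dp)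
  init : ∀ x, u 0 x = 0
  per : ∀ t ∈ Icc (0 : ℝ) T, ∀ x k, u t (shiftBy k x) = u t x ∧ p t (shiftBy k x) = p t x
  mean : ∀ t ∈ Icc (0 : ℝ) T, ∫ x in Icc (0 : Point) 1, p t x = 0
  dt : ∀ t ∈ Ioo (0 : ℝ) T, ∀ x i, HasDerivAt (fun s => u s x i) (ut t x i) t
  dx : ∀ t ∈ Icc (0 : ℝ) T, ∀ x j i,
    HasDerivAt (fun s => u t (Function.update x j s) i) (du t x j i) (x j)
  ddx : ∀ t ∈ Icc (0 : ℝ) T, ∀ x j k i,
    HasDerivAt (fun s => du t (Function.update x k s) j i) (ddu t x j k i) (x k)
  dpx : ∀ t ∈ Icc (0 : ℝ) T, ∀ x j,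
    HasDerivAt (fun s => p t (Function.update x j s)) (dp t x j) (x j)
  div : ∀ t ∈ Icc (0 : ℝ) T, ∀ x, ∑ j, du t x j j = 0
  eqn : ∀ t ∈ Icc (0 : ℝ) T, ∀ x i, ut t x i + ∑ j, u t x j * du t x j i
        = -dp t x i + nu * ∑ j, ddu t x j j i + f t x i

/-- Clamping a time to `[0, T]`. -/
def clampTime (T s : ℝ) : ℝ := max 0 (min T s)

theorem clampTime_mem {T : ℝ} (hT : 0 ≤ T) (s : ℝ) : clampTime T s ∈ Icc (0 : ℝ) T :=
  ⟨le_max_left _ _, max_le hT (min_le_left _ _)⟩

theorem clampTime_of_mem {T s : ℝ} (h : s ∈ Icc (0 : ℝ) T) : clampTime T s = s := by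
  rw [clampTime, min_eq_right h.2, max_eq_right h.1]

theorem continuous_clamp {T : ℝ} (hT : 0 ≤ T) {β : Type*} [TopologicalSpace β]
    {F : ℝ → Point → β} (h : ContinuousOn (Function.uncurry F) (Icc (0 : ℝ) T ×ˢ univ)) :
    Continuous (Function.uncurry fun s x => F (clampTime T s) x) := by
  have hc : Continuous fun z : ℝ × Point => (clampTime T z.1, z.2) :=
    ((continuous_const.max (continuous_const.min continuous_fst))).prodMk continuous_snd
  exact h.comp_continuous hc fun z => ⟨clampTime_mem hT _, mem_univ _⟩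

theorem exists_solData {nu T : ℝ} (hT : 0 < T) {f : ℝ → Point → Point} {u : ℝ → Point → Point}
    {p : ℝ → Point → ℝ} (h : IsClassicalSolution nu T f u p) :
    ∃ S : SolData nu T f, (∀ t ∈ Icc (0 : ℝ) T, ∀ x, S.u t x = u t x ∧ S.p t x = p t x) := by
  obtain ⟨h0, hper, hmean, ut, du, ddu, dp, cu, cut, cdu, cddu, cp, cdp, hpt⟩ := h
  have e : ∀ {t}, t ∈ Icc (0 : ℝ) T → clampTime T t = t := fun h => clampTime_of_mem h
  refine ⟨⟨fun s x => u (clampTime T s) x, fun s x => p (clampTime T s) x,
    fun s x => ut (clampTime T s) x, fun s x => du (clampTime T s) x,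
    fun s x => ddu (clampTime T s) x, fun s x => dp (clampTime T s) x,
    continuous_clamp hT.le cu, continuous_clamp hT.le cut, continuous_clamp hT.le cdu,
    continuous_clamp hT.le cddu, continuous_clamp hT.le cp, continuous_clamp hT.le cdp,
    fun x => ?_, fun t ht x k => ?_, fun t ht => ?_, fun t ht x i => ?_, fun t ht x j i => ?_,
    fun t ht x j k i => ?_, fun t ht x j => ?_, fun t ht x => ?_, fun t ht x i => ?_⟩,
    fun t ht x => ?_⟩
  · rw [e ⟨le_rfl, hT.le⟩, h0]
  · rw [e ht]; exact hper t ht x k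
  · rw [e ht]; exact hmean t ht
  · have hm := Ioo_subset_Icc_self ht
    have hn : Icc (0 : ℝ) T ∈ nhds t := Icc_mem_nhds ht.1 ht.2
    have h1 := hasDerivAt_pi.1 ((hpt t hm x).1.hasDerivAt hn) i
    simp only [e hm]
    refine h1.congr_of_eventuallyEq ?_
    filter_upwards [hn] with s hs
    rw [e hs]
  · simp only [e ht]; exact hasDerivAt_pi.1 ((hpt t ht x).2.1 j) i
  · simp only [e ht]; exact hasDerivAt_pi.1 ((hpt t ht x).2.2.1 j k) i
  · simp only [e ht]; exact (hpt t ht x).2.2.2.1 j
  · simp only [e ht]; exact (hpt t ht x).2.2.2.2.1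
  · simp only [e ht]; exact (hpt t ht x).2.2.2.2.2 i
  · simp [e ht]

/-- The central pointwise energy inequality, in algebraic form. -/
theorem energy_algebra (nu M : ℝ) (hnu : 0 ≤ nu) (w wt vv dr : Fin 3 → ℝ) (r : ℝ)
    (dw dvv duu : Fin 3 → Fin 3 → ℝ) (ddw : Fin 3 → Fin 3 → ℝ)
    (heq : ∀ i, wt i + ∑ j, vv j * dw j i + ∑ j, w j * duu j i
      = -dr i + nu * ∑ j, ddw j i)
    (hdv : ∑ j, dvv j j = 0) (hdw : ∑ j, dw j j = 0) (hM : ∀ j i, |duu j i| ≤ M) :
    ∑ i, w i * wt i ≤
      ∑ j, (nu * ∑ i, (dw j i * dw j i + w i * ddw j i)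
        - (dvv j j * (∑ i, w i * w i) + vv j * ∑ i, (dw j i * w i + w i * dw j i)) / 2
        - (dw j j * r + w j * dr j))
      + 3 * M * ∑ i, w i * w i := by
  have h0 := heq 0
  have h1 := heq 1
  have h2 := heq 2
  simp only [Fin.sum_univ_three] at h0 h1 h2 hdv hdw ⊢
  have e0 : wt 0 = -dr 0 + nu * (ddw 0 0 + ddw 1 0 + ddw 2 0)
      - (vv 0 * dw 0 0 + vv 1 * dw 1 0 + vv 2 * dw 2 0)
      - (w 0 * duu 0 0 + w 1 * duu 1 0 + w 2 * duu 2 0) := by linarith
  have e1 : wt 1 = -dr 1 + nu * (ddw 0 1 + ddw 1 1 + ddw 2 1)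
      - (vv 0 * dw 0 1 + vv 1 * dw 1 1 + vv 2 * dw 2 1)
      - (w 0 * duu 0 1 + w 1 * duu 1 1 + w 2 * duu 2 1) := by linarith
  have e2 : wt 2 = -dr 2 + nu * (ddw 0 2 + ddw 1 2 + ddw 2 2)
      - (vv 0 * dw 0 2 + vv 1 * dw 1 2 + vv 2 * dw 2 2)
      - (w 0 * duu 0 2 + w 1 * duu 1 2 + w 2 * duu 2 2) := by linarith
  rw [e0, e1, e2]
  have hb : ∀ j i, -(w i * w j * duu j i) ≤ M * ((w i * w i + w j * w j) / 2) := by
    intro j i
    have := abs_le.1 (hM j i)
    nlinarith [mul_le_mul_of_nonneg_left this.1 (sq_nonneg (w i + w j)),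
      mul_le_mul_of_nonneg_left this.2 (sq_nonneg (w i + w j)),
      mul_le_mul_of_nonneg_left this.1 (sq_nonneg (w i - w j)),
      mul_le_mul_of_nonneg_left this.2 (sq_nonneg (w i - w j))]
  have hz1 : (w 0 * w 0 + w 1 * w 1 + w 2 * w 2) * (dvv 0 0 + dvv 1 1 + dvv 2 2) = 0 := by
    rw [hdv, mul_zero]
  have hz2 : r * (dw 0 0 + dw 1 1 + dw 2 2) = 0 := by rw [hdw, mul_zero]
  have hsq : ∀ j i, 0 ≤ nu * (dw j i * dw j i) := fun j i =>
    mul_nonneg hnu (mul_self_nonneg _)
  linarith [hb 0 0, hb 0 1, hb 0 2, hb 1 0, hb 1 1, hb 1 2, hb 2 0, hb 2 1, hb 2 2,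
    hsq 0 0, hsq 0 1, hsq 0 2, hsq 1 0, hsq 1 1, hsq 1 2, hsq 2 0, hsq 2 1, hsq 2 2]

theorem solData_unique {nu T : ℝ} (hnu : 0 ≤ nu) (hT : 0 < T) {f : ℝ → Point → Point}
    (S S' : SolData nu T f) :
    ∀ t ∈ Icc (0 : ℝ) T, ∀ x, S'.u t x = S.u t x ∧ S'.p t x = S.p t x := by
  set w : ℝ → Point → Fin 3 → ℝ := fun t x i => S'.u t x i - S.u t x i with hw
  set wt : ℝ → Point → Fin 3 → ℝ := fun t x i => S'.ut t x i - S.ut t x i with hwt
  set dw : ℝ → Point → Fin 3 → Fin 3 → ℝ := fun t x j i => S'.du t x j i - S.du t x j i with hdw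
  set r : ℝ → Point → ℝ := fun t x => S'.p t x - S.p t x with hr
  have cw : ∀ i, Continuous fun z : ℝ × Point => w z.1 z.2 i := fun i =>
    ((continuous_apply i).comp S'.cu).sub ((continuous_apply i).comp S.cu)
  have cwt : ∀ i, Continuous fun z : ℝ × Point => wt z.1 z.2 i := fun i =>
    ((continuous_apply i).comp S'.cut).sub ((continuous_apply i).comp S.cut)
  obtain ⟨M, hM⟩ := ((isCompact_Icc (a := (0 : ℝ)) (b := T)).prod
    (isCompact_Icc (a := (0 : Point)) (b := 1))).exists_bound_of_continuousOn S.cdu.continuousOn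
  set D : ℝ → ℝ := fun t => ∫ x in cube, ∑ i, 2 * (w t x i * wt t x i) with hD
  have cint : Continuous fun z : ℝ × Point => ∑ i, 2 * (w z.1 z.2 i * wt z.1 z.2 i) :=
    continuous_finsetSum _ fun i _ => continuous_const.mul ((cw i).mul (cwt i))
  have cD : Continuous D :=
    continuous_parametric_integral_of_continuous cint isCompact_Icc
  set E : ℝ → ℝ := fun t => ∫ x in cube, ∑ i, w t x i * w t x i with hE
  have hED : ∀ t ∈ Icc 0 T, E t = ∫ s in (0 : ℝ)..t, D s := by
    intro t ht
    have hswap : ∫ s in (0 : ℝ)..t, D s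
        = ∫ x in cube, ∫ s in (0 : ℝ)..t, ∑ i, 2 * (w s x i * wt s x i) := by
      rw [hD, intervalIntegral.integral_of_le ht.1]
      simp only [intervalIntegral.integral_of_le ht.1]
      refine integral_integral_swap ?_
      rw [Measure.prod_restrict]
      exact (cint.continuousOn.integrableOn_compact
        ((isCompact_Icc (a := 0) (b := t)).prod isCompact_Icc)).mono_set
        (prod_mono Ioc_subset_Icc_self Subset.rfl)
    rw [hswap]
    refine setIntegral_congr_fun measurableSet_Icc fun x _ => ?_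
    have hd : ∀ s ∈ Ioo 0 t, HasDerivAt (fun s => ∑ i, w s x i * w s x i)
        (∑ i, 2 * (w s x i * wt s x i)) s := by
      intro s hs
      have hs' : s ∈ Ioo 0 T := ⟨hs.1, hs.2.trans_le ht.2⟩
      refine HasDerivAt.fun_sum fun i _ => ?_
      have h := (S'.dt s hs' x i).sub (S.dt s hs' x i)
      have h2 : HasDerivAt (fun s => w s x i) (wt s x i) s := h
      convert! h2.fun_mul h2 using 1
      ring
    have hcs : ∀ i, Continuous fun s => w s x i := fun i =>
      (cw i).comp (continuous_id.prodMk continuous_const)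
    rw [intervalIntegral.integral_eq_sub_of_hasDerivAt_of_le ht.1
      (continuous_finsetSum _ fun i _ => (hcs i).mul (hcs i)).continuousOn hd
      ((cint.comp (continuous_id.prodMk continuous_const)).intervalIntegrable _ _)]
    have h0 : ∀ i, w 0 x i = 0 := fun i => by simp [hw, S.init, S'.init]
    simp [h0]
  have hle : ∀ t ∈ Icc 0 T, D t ≤ (6 * M) * E t := by
    intro t ht
    have cw' : ∀ i, Continuous fun x => w t x i := fun i =>
      (cw i).comp (continuous_const.prodMk continuous_id)
    have cv : ∀ i, Continuous fun x => S'.u t x i := fun i =>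
      ((continuous_apply i).comp S'.cu).comp (continuous_const.prodMk continuous_id)
    have hS : Continuous fun x : Point => S.du t x :=
      S.cdu.comp (continuous_const.prodMk continuous_id)
    have hS' : Continuous fun x : Point => S'.du t x :=
      S'.cdu.comp (continuous_const.prodMk continuous_id)
    have gS : Continuous fun x : Point => S.ddu t x :=
      S.cddu.comp (continuous_const.prodMk continuous_id)
    have gS' : Continuous fun x : Point => S'.ddu t x :=
      S'.cddu.comp (continuous_const.prodMk continuous_id)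
    have cdv : ∀ j i, Continuous fun x => S'.du t x j i := fun j i =>
      continuous_pi_iff.1 (continuous_pi_iff.1 hS' j) i
    have cdw : ∀ j i, Continuous fun x => dw t x j i := fun j i =>
      (cdv j i).sub (continuous_pi_iff.1 (continuous_pi_iff.1 hS j) i)
    have cddw : ∀ j i, Continuous fun x => S'.ddu t x j j i - S.ddu t x j j i := fun j i =>
      (continuous_pi_iff.1 (continuous_pi_iff.1 (continuous_pi_iff.1 gS' j) j) i).sub
        (continuous_pi_iff.1 (continuous_pi_iff.1 (continuous_pi_iff.1 gS j) j) i)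
    have cr : Continuous fun x => r t x :=
      (S'.cp.sub S.cp).comp (continuous_const.prodMk continuous_id)
    have cdr : ∀ i, Continuous fun x => S'.dp t x i - S.dp t x i := fun i =>
      (((continuous_apply i).comp S'.cdp).sub ((continuous_apply i).comp S.cdp)).comp
        (continuous_const.prodMk continuous_id)
    set H : Fin 3 → Point → ℝ := fun j x =>
      nu * ∑ i, (dw t x j i * dw t x j i + w t x i * (S'.ddu t x j j i - S.ddu t x j j i))
        - (S'.du t x j j * (∑ i, w t x i * w t x i)
            + S'.u t x j * ∑ i, (dw t x j i * w t x i + w t x i * dw t x j i)) / 2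
        - (dw t x j j * r t x + w t x j * (S'.dp t x j - S.dp t x j)) with hH
    have hHc : ∀ j, Continuous (H j) := fun j =>
      ((continuous_const.mul (continuous_finsetSum _ fun i _ =>
          ((cdw j i).mul (cdw j i)).add ((cw' i).mul (cddw j i)))).sub
        ((((cdv j j).mul (continuous_finsetSum _ fun i _ => (cw' i).mul (cw' i))).add
          ((cv j).mul (continuous_finsetSum _ fun i _ =>
            ((cdw j i).mul (cw' i)).add ((cw' i).mul (cdw j i))))).div_const 2)).sub
        (((cdw j j).mul cr).add ((cw' j).mul (cdr j)))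
    have hH0 : ∀ j, ∫ x in cube, H j x = 0 := by
      intro j
      have hwd : ∀ i x, HasDerivAt (fun s => w t (Function.update x j s) i) (dw t x j i) (x j) :=
        fun i x => (S'.dx t ht x j i).sub (S.dx t ht x j i)
      have hwp : ∀ i, PeriodicFn fun x => w t x i := fun i x k => by
        simp only [hw, (S'.per t ht x k).1, (S.per t ht x k).1]
      refine integral_cube_deriv_eq_zero (g := fun x => nu * ∑ i, w t x i * dw t x j i
        - S'.u t x j * (∑ i, w t x i * w t x i) / 2 - w t x j * r t x) ?_ j (fun x => ?_) (hHc j)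
      · intro x k
        have hdp : ∀ i, dw t (shiftBy k x) j i = dw t x j i := fun i =>
          periodicFn_deriv (g' := fun y => dw t y j i) (hwp i) j (hwd i) x k
        have h1 : ∀ i, w t (shiftBy k x) i = w t x i := fun i => hwp i x k
        simp only [hr, h1, hdp, (S'.per t ht x k).1, (S'.per t ht x k).2, (S.per t ht x k).2]
      · have hdd : ∀ i, HasDerivAt (fun s => dw t (Function.update x j s) j i)
            (S'.ddu t x j j i - S.ddu t x j j i) (x j) := fun i =>
          (S'.ddx t ht x j j i).sub (S.ddx t ht x j j i)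
        have hrd : HasDerivAt (fun s => r t (Function.update x j s))
            (S'.dp t x j - S.dp t x j) (x j) := (S'.dpx t ht x j).sub (S.dpx t ht x j)
        have := (((HasDerivAt.fun_sum (u := (Finset.univ : Finset (Fin 3)))
            fun i _ => (hwd i x).fun_mul (hdd i)).const_mul nu).fun_sub
          (((S'.dx t ht x j j).fun_mul (HasDerivAt.fun_sum (u := (Finset.univ : Finset (Fin 3)))
            fun i _ => (hwd i x).fun_mul (hwd i x))).div_const 2)).fun_sub
          ((hwd j x).fun_mul hrd)
        simpa only [Function.update_eq_self, hH] using this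
    have hpt : ∀ x ∈ cube, ∑ i, 2 * (w t x i * wt t x i)
        ≤ 2 * ∑ j, H j x + 6 * M * ∑ i, w t x i * w t x i := by
      intro x hx
      have key := energy_algebra nu M hnu (w t x) (wt t x) (S'.u t x)
        (fun i => S'.dp t x i - S.dp t x i) (r t x) (dw t x) (S'.du t x) (S.du t x)
        (fun j i => S'.ddu t x j j i - S.ddu t x j j i) (fun i => ?_) (S'.div t ht x) ?_
        (fun j i => ?_)
      · simp only [hH, Finset.mul_sum] at key ⊢
        simp only [← Finset.mul_sum] at key ⊢
        linarith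
      · have h1 := S'.eqn t ht x i
        have h2 := S.eqn t ht x i
        simp only [hwt, hdw, hw, Fin.sum_univ_three] at h1 h2 ⊢
        linarith
      · have h1 := S'.div t ht x
        have h2 := S.div t ht x
        simp only [hdw, Fin.sum_univ_three] at h1 h2 ⊢
        linarith
      · have h1 := hM (t, x) ⟨ht, hx⟩
        have h2 : ‖S.du t x j i‖ ≤ ‖S.du t x‖ :=
          (norm_le_pi_norm _ i).trans (norm_le_pi_norm (S.du t x) j)
        exact h2.trans h1
    have cwt' : Continuous fun x => ∑ i, 2 * (w t x i * wt t x i) :=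
      cint.comp (continuous_const.prodMk continuous_id)
    have cE : Continuous fun x => ∑ i, w t x i * w t x i :=
      continuous_finsetSum _ fun i _ => (cw' i).mul (cw' i)
    have cE2 : Continuous fun x => 6 * M * ∑ i, w t x i * w t x i := continuous_const.mul cE
    have cH : Continuous fun x => 2 * ∑ j, H j x :=
      continuous_const.mul (continuous_finsetSum _ fun j _ => hHc j)
    calc D t ≤ ∫ x in cube, (2 * ∑ j, H j x + 6 * M * ∑ i, w t x i * w t x i) :=
          setIntegral_mono_on cwt'.integrableOn_Icc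
            (cH.add cE2).integrableOn_Icc measurableSet_Icc hpt
      _ = 6 * M * E t := by
          rw [integral_add cH.integrableOn_Icc cE2.integrableOn_Icc,
            integral_const_mul, integral_const_mul,
            integral_finsetSum _ fun j _ => (hHc j).integrableOn_Icc]
          simp [hH0, hE]
  have hE0 : ∀ t ∈ Icc 0 T, E t = 0 := eq_zero_of_energy cD hED hle fun t _ =>
    setIntegral_nonneg measurableSet_Icc fun x _ =>
      Finset.sum_nonneg fun i _ => mul_self_nonneg _
  have hu : ∀ t ∈ Icc 0 T, ∀ x i, S'.u t x i = S.u t x i := by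
    intro t ht x i
    have cw' : ∀ i, Continuous fun x => w t x i := fun i =>
      (cw i).comp (continuous_const.prodMk continuous_id)
    have h0 : ∫ x in cube, w t x i ^ 2 = 0 := by
      refine le_antisymm ?_ (setIntegral_nonneg measurableSet_Icc fun x _ => sq_nonneg _)
      rw [← hE0 t ht]
      refine setIntegral_mono_on ((cw' i).pow 2).integrableOn_Icc
        (continuous_finsetSum _ fun i _ => (cw' i).mul (cw' i)).integrableOn_Icc
        measurableSet_Icc fun x _ => ?_
      rw [pow_two]
      exact Finset.single_le_sum (f := fun i => w t x i * w t x i)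
        (fun i _ => mul_self_nonneg _) (Finset.mem_univ i)
    have := eq_zero_of_integral_sq (cw' i) (fun y k => by
      simp only [hw, (S'.per t ht y k).1, (S.per t ht y k).1]) h0 x
    exact sub_eq_zero.1 this
  intro t ht x
  refine ⟨funext fun i => hu t ht x i, ?_⟩
  have hwt0 : ∀ t ∈ Ioo 0 T, ∀ x i, S'.ut t x i = S.ut t x i := by
    intro t ht x i
    refine (S'.dt t ht x i).unique ((S.dt t ht x i).congr_of_eventuallyEq ?_)
    filter_upwards [Icc_mem_nhds ht.1 ht.2] with s hs
    exact hu s hs x i
  have hdu : ∀ t ∈ Icc 0 T, ∀ x j i, S'.du t x j i = S.du t x j i := fun t ht x j i =>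
    (S'.dx t ht x j i).unique ((S.dx t ht x j i).congr_of_eventuallyEq
      (Filter.Eventually.of_forall fun s => hu t ht (Function.update x j s) i))
  have hdp' : ∀ t ∈ Ioo 0 T, ∀ x i, S'.dp t x i = S.dp t x i := by
    intro t ht x i
    have hm := Ioo_subset_Icc_self ht
    have hdd : ∀ j, S'.ddu t x j j i = S.ddu t x j j i := fun j =>
      (S'.ddx t hm x j j i).unique ((S.ddx t hm x j j i).congr_of_eventuallyEq
        (Filter.Eventually.of_forall fun s => hdu t hm (Function.update x j s) j i))
    have h1 := S'.eqn t hm x i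
    have h2 := S.eqn t hm x i
    simp only [hwt0 t ht x, hu t hm x, hdd, hdu t hm x] at h1
    linarith
  have hp : ∀ t ∈ Ioo 0 T, ∀ x, r t x = 0 := by
    intro t ht x
    have hm := Ioo_subset_Icc_self ht
    have hconst : ∀ (y : Point) j s, r t (Function.update y j s) = r t y := by
      intro y j s
      have hd : ∀ a : ℝ, HasDerivAt (fun a => r t (Function.update y j a)) 0 a := by
        intro a
        have := (S'.dpx t hm (Function.update y j a) j).sub (S.dpx t hm (Function.update y j a) j)
        rw [hdp' t ht, sub_self] at this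
        simpa using! this
      have := is_const_of_deriv_eq_zero (fun a => (hd a).differentiableAt)
        (fun a => (hd a).deriv) s (y j)
      simpa using this
    have hall : ∀ y : Point, r t y = r t x := by
      intro y
      have e : y = Function.update (Function.update (Function.update x 0 (y 0)) 1 (y 1)) 2 (y 2) := by
        funext i; fin_cases i <;> simp
      rw [e, hconst, hconst, hconst]
    have hmean : ∫ y in cube, r t y = 0 := by
      simp only [hr]
      rw [integral_sub, S'.mean t hm, S.mean t hm, sub_zero]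
      · exact (S'.cp.comp (continuous_const.prodMk continuous_id)).integrableOn_Icc
      · exact (S.cp.comp (continuous_const.prodMk continuous_id)).integrableOn_Icc
    simp only [hall, setIntegral_const] at hmean
    simpa [cube, Real.volume_Icc_pi, measureReal_def] using hmean
  have hc : Continuous fun s => r s x :=
    (S'.cp.sub S.cp).comp (continuous_id.prodMk continuous_const)
  have : t ∈ closure (Ioo 0 T) := by rwa [closure_Ioo hT.ne]
  exact sub_eq_zero.1 ((closure_minimal (fun s hs => hp s hs x)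
    (isClosed_eq hc continuous_const)) this)

theorem classical_unique {nu T : ℝ} (hnu : 0 ≤ nu) (hT : 0 < T) {f : ℝ → Point → Point}
    {u v : ℝ → Point → Point} {p q : ℝ → Point → ℝ}
    (hu : IsClassicalSolution nu T f u p) (hv : IsClassicalSolution nu T f v q) :
    ∀ t ∈ Icc (0 : ℝ) T, ∀ x, v t x = u t x ∧ q t x = p t x := by
  obtain ⟨S, hS⟩ := exists_solData hT hu
  obtain ⟨S', hS'⟩ := exists_solData hT hv
  intro t ht x
  have := solData_unique hnu hT S S' t ht x
  rw [(hS t ht x).1, (hS t ht x).2, (hS' t ht x).1, (hS' t ht x).2] at this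
  exact this

end Vale.Agent.P113
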