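import Vale.Agent.P113.Admissible
import Vale.Agent.P113.Uniqueness

/-!
# Time-sequenced shear flows, their forces and their trajectories
-/

namespace Vale.Agent.P113

open MeasureTheory Set
open scoped ContDiff

theorem sigma_mono : Monotone sigma :=
  monotone_of_deriv_nonneg (fun s => (sigma_hasDerivAt s).differentiableAt) fun s => by
    rw [(sigma_hasDerivAt s).deriv]; exact rho_nonneg s

theorem sigma_div_kappa_mem (s : ℝ) : sigma s / kappa ∈ Icc (0 : ℝ) 1 := by
  have h0 : 0 ≤ sigma s := setIntegral_nonneg measurableSet_Iic fun r _ => rho_nonneg r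
  have h1 : sigma s ≤ kappa :=
    setIntegral_le_integral rho_integrable (Filter.Eventually.of_forall rho_nonneg)
  exact ⟨div_nonneg h0 kappa_pos.le, (div_le_one kappa_pos).2 h1⟩

/-- A finite sequence of shears: phase `j` moves only coordinate `axis j`, by an amount which does
not depend on that coordinate. -/
structure Shears where
  /-- the number of phases, minus one -/
  n : ℕ
  /-- the coordinate moved in each phase -/
  axis : Fin (n + 1) → Fin 3
  /-- the amount of the move in each phase -/
  amount : Fin (n + 1) → Point → ℝ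
  gen : ∀ j, Gen fun _ _ x => amount j x
  indep : ∀ j x s, amount j (Function.update x (axis j) s) = amount j x

namespace Shears

variable (S : Shears)

/-- The length of the time slot of a phase. -/
def len : ℚ := 3 / (8 * (S.n + 1))

/-- The bump driving a phase. -/
def bump (j : Fin (S.n + 1)) : BumpCode :=
  (Sum.inl 0, 0, ratCode (2 / S.len), ratCode ((1 + 2 * (j : ℕ) * S.len) / S.len + 1))

theorem len_pos : 0 < S.len := by unfold len; positivity

theorem bump_valid (j : Fin (S.n + 1)) : bumpValid (S.bump j) := by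
  show (ratCode (2 / S.len)).val ≠ 0
  rw [ratCode_val]
  have := S.len_pos
  exact_mod_cast (by positivity : (2 : ℚ) / S.len ≠ 0)

/-- The argument of the profile of phase `j`. -/
noncomputable def arg (j : Fin (S.n + 1)) (t : ℝ) : ℝ :=
  (2 * t - 1 - 2 * (j : ℕ) * S.len) / S.len - 1

theorem bump_val (j : Fin (S.n + 1)) (t : ℝ) : bumpVal (S.bump j) t = rho (S.arg j t) := by
  have h : (S.len : ℝ) ≠ 0 := by exact_mod_cast S.len_pos.ne'
  simp only [bump, bumpVal, profileVal, iteratedDeriv_zero, pow_zero, one_mul, ratCode_val, arg]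
  push_cast
  congr 1
  field_simp
  ring

/-- The progress of phase `j` at time `t` of a period. -/
noncomputable def prog (j : Fin (S.n + 1)) (t : ℝ) : ℝ := sigma (S.arg j t) / kappa

/-- The speed of phase `j`. -/
noncomputable def speed (j : Fin (S.n + 1)) (t : ℝ) : ℝ :=
  ((2 / S.len : ℚ) : ℝ) * kappa⁻¹ * bumpVal (S.bump j) t

theorem prog_hasDerivAt (j : Fin (S.n + 1)) (t : ℝ) :
    HasDerivAt (S.prog j) (S.speed j t) t := by
  have h : HasDerivAt (fun t => S.arg j t) (2 / (S.len : ℝ)) t := by
    unfold arg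
    simpa using! ((((hasDerivAt_id t).const_mul 2).sub_const 1).sub_const
      (2 * ((j : ℕ) : ℝ) * (S.len : ℝ))).div_const (S.len : ℝ) |>.sub_const 1
  have := ((sigma_hasDerivAt (S.arg j t)).comp t h).div_const kappa
  convert! this using 1
  rw [speed, bump_val]
  push_cast
  ring

theorem window (j : Fin (S.n + 1)) :
    1 / 2 + ((j : ℕ) + 1 : ℝ) * S.len ≤ 7 / 8 := by
  have h : ((j : ℕ) : ℝ) + 1 ≤ (S.n : ℝ) + 1 := by exact_mod_cast j.isLt
  have h2 : ((j : ℕ) + 1 : ℝ) * S.len ≤ ((S.n : ℝ) + 1) * S.len :=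
    mul_le_mul_of_nonneg_right h (by exact_mod_cast S.len_pos.le)
  have h3 : ((S.n : ℝ) + 1) * S.len = 3 / 8 := by
    unfold len; push_cast; field_simp
  linarith

theorem prog_zero {j : Fin (S.n + 1)} {t : ℝ} (h : t ≤ 1 / 2 + (j : ℕ) * (S.len : ℝ)) :
    S.prog j t = 0 := by
  have hl : (0 : ℝ) < S.len := by exact_mod_cast S.len_pos
  rw [prog, sigma_of_le, zero_div]
  rw [arg]
  have : (2 * t - 1 - 2 * ((j : ℕ) : ℝ) * S.len) / S.len ≤ 0 :=
    div_nonpos_of_nonpos_of_nonneg (by linarith) hl.le
  linarith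

theorem prog_one {j : Fin (S.n + 1)} {t : ℝ} (h : 1 / 2 + ((j : ℕ) + 1 : ℝ) * S.len ≤ t) :
    S.prog j t = 1 := by
  have hl : (0 : ℝ) < S.len := by exact_mod_cast S.len_pos
  rw [prog, sigma_of_ge, div_self kappa_ne]
  rw [arg]
  have : 2 ≤ (2 * t - 1 - 2 * ((j : ℕ) : ℝ) * S.len) / S.len := by
    rw [le_div_iff₀ hl]; linarith
  linarith

theorem speed_ne {j : Fin (S.n + 1)} {t : ℝ} (h : S.speed j t ≠ 0) :
    1 / 2 + ((j : ℕ) : ℝ) * S.len < t ∧ t < 1 / 2 + ((j : ℕ) + 1 : ℝ) * S.len := by
  have hl : (0 : ℝ) < S.len := by exact_mod_cast S.len_pos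
  rw [speed, bump_val] at h
  have h' := rho_support (Function.mem_support.2 (right_ne_zero_of_mul h))
  rw [mem_Ioo, arg] at h'
  obtain ⟨h1, h2⟩ := h'
  have h3 : 0 < (2 * t - 1 - 2 * ((j : ℕ) : ℝ) * S.len) / S.len := by linarith
  have h4 : (2 * t - 1 - 2 * ((j : ℕ) : ℝ) * S.len) / S.len < 2 := by linarith
  rw [div_lt_iff₀ hl] at h4
  rw [lt_div_iff₀ hl, zero_mul] at h3
  constructor <;> linarith

theorem speed_mem {j : Fin (S.n + 1)} {t : ℝ} (h : S.speed j t ≠ 0) : t ∈ Ioo (1 / 2 : ℝ) (7 / 8) := by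
  have hl : (0 : ℝ) < S.len := by exact_mod_cast S.len_pos
  obtain ⟨h1, h2⟩ := S.speed_ne h
  have h3 := S.window j
  have h4 : (0 : ℝ) ≤ ((j : ℕ) : ℝ) * S.len := mul_nonneg (Nat.cast_nonneg _) hl.le
  constructor <;> linarith

/-- The periodized speed. -/
noncomputable def perSpeed (j : Fin (S.n + 1)) (t : ℝ) : ℝ :=
  ((2 / S.len : ℚ) : ℝ) * kappa⁻¹ * periodize (bumpVal (S.bump j)) t

theorem perSpeed_eq (j : Fin (S.n + 1)) (t : ℝ) : S.perSpeed j t = S.speed j (Int.fract t) := by
  have e : t = Int.fract t + (⌊t⌋ : ℝ) := by rw [Int.fract_add_floor]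
  rw [perSpeed, speed]
  congr 1
  rw [e, periodize_add_int, periodize_eq_self (c := 0) ⟨by simp [Int.fract_nonneg], by
    simp [Int.fract_lt_one]⟩ ?_, ← e]
  intro s hs
  have hne : S.speed j s ≠ 0 := by
    rw [speed]
    refine mul_ne_zero (mul_ne_zero ?_ (inv_ne_zero kappa_ne)) hs
    have := S.len_pos
    exact_mod_cast (by positivity : (2 : ℚ) / S.len ≠ 0)
  have := S.speed_mem hne
  exact ⟨by linarith [this.1], by linarith [this.2]⟩

/-- The periodic velocity field. -/
noncomputable def vel (t : ℝ) (x : Point) : Point := fun i =>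
  ∑ j, if S.axis j = i then S.perSpeed j t * S.amount j x else 0

theorem vel_gen (i : Fin 3) : Gen fun _ t x => S.vel t x i := by
  unfold vel
  refine Gen.finsetSum _ fun j _ => ?_
  rcases em (S.axis j = i) with h | h
  · simp only [if_pos h, perSpeed]
    exact (((Gen.const _).mul Gen.kinv).mul (Gen.time _ (S.bump_valid j))).mul (S.gen j)
  · simp only [if_neg h]
    exact Gen.zero

theorem vel_zero {t : ℝ} (h : Int.fract t ∉ Ioo (1 / 2 : ℝ) (7 / 8)) (x : Point) : S.vel t x = 0 := by
  funext i
  refine Finset.sum_eq_zero fun j _ => ?_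
  have : S.perSpeed j t = 0 := by
    rw [perSpeed_eq]; by_contra hne; exact h (S.speed_mem hne)
  simp [this]

end Shears

/-- The bump driving the loader. -/
def loadBump (j : ℕ) : BumpCode := (Sum.inl j, 0, ratCode 8, ratCode 2)

/-- The velocity of the loader. -/
noncomputable def loadVel (P : Fin 3 → ℚ) (t : ℝ) : Point :=
  fun i => (P i : ℝ) * 8 * kappa⁻¹ * bumpVal (loadBump 0) t

/-- The time derivative of the velocity of the loader. -/
noncomputable def loadForce (P : Fin 3 → ℚ) (t : ℝ) : Point :=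
  fun i => (P i : ℝ) * 64 * kappa⁻¹ * bumpVal (loadBump 1) t

/-- The progress of the loader. -/
noncomputable def loadProg (t : ℝ) : ℝ := sigma (8 * t - 2) / kappa

theorem loadBump_val (j : ℕ) (t : ℝ) :
    bumpVal (loadBump j) t = iteratedDeriv j rho (8 * t - 2) := by
  simp [loadBump, bumpVal, profileVal, ratCode_val]

theorem loadProg_hasDerivAt (t : ℝ) :
    HasDerivAt loadProg (8 * kappa⁻¹ * bumpVal (loadBump 0) t) t := by
  have := ((sigma_hasDerivAt (8 * t - 2)).comp t
    (((hasDerivAt_id t).const_mul 8).sub_const 2)).div_const kappa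
  convert! this using 1
  rw [loadBump_val, iteratedDeriv_zero]
  ring

theorem loadVel_hasDerivAt (P : Fin 3 → ℚ) (t : ℝ) (i : Fin 3) :
    HasDerivAt (fun s => loadVel P s i) (loadForce P t i) t := by
  have h : HasDerivAt rho (iteratedDeriv 1 rho (8 * t - 2)) (8 * t - 2) := by
    rw [iteratedDeriv_one]
    exact ((rho_contDiff (n := ⊤)).differentiable (by norm_num) _).hasDerivAt
  have := (h.comp t (((hasDerivAt_id t).const_mul 8).sub_const 2)).const_mul
    ((P i : ℝ) * 8 * kappa⁻¹)
  simp only [loadVel, loadForce, loadBump_val, iteratedDeriv_zero]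
  convert! this using 1
  ring

theorem loadVel_zero (P : Fin 3 → ℚ) {t : ℝ} (h : t ∉ Ioo (1 / 8 : ℝ) (3 / 8)) :
    loadVel P t = 0 := by
  funext i
  simp only [loadVel, loadBump_val, iteratedDeriv_zero, Pi.zero_apply]
  rw [rho_zero_of, mul_zero]
  by_contra hc
  obtain ⟨h1, h2⟩ := abs_lt.1 (not_le.1 hc)
  exact h ⟨by linarith, by linarith⟩

theorem loadProg_one {t : ℝ} (h : 3 / 8 ≤ t) : loadProg t = 1 := by
  rw [loadProg, sigma_of_ge (by linarith), div_self kappa_ne]

/-- A term of the loader force. -/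
def loadTerm (q : ℚ) : TermCode :=
  (ratCode (q * 64), 0, -1, [], [(false, loadBump 1)], [], [], [])

theorem loadTerm_val (q : ℚ) (ν t : ℝ) (x : Point) :
    termVal ν t x (loadTerm q) = (q : ℝ) * 64 * kappa⁻¹ * bumpVal (loadBump 1) t := by
  simp [loadTerm, termVal, timeFactorVal, spaceFactorVal, ratCode_val]

theorem loadTerm_valid (q : ℚ) : termValid (loadTerm q) := by
  refine ⟨fun r hr => ?_, fun g hg => ?_, fun g hg => ?_⟩
  · simp at hr
  · rw [List.mem_singleton] at hg
    subst hg
    show (ratCode 8).val ≠ 0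
    rw [ratCode_val]; norm_num
  · simp at hg

theorem loadTerm_not_periodic (q : ℚ) : isPeriodicTerm (loadTerm q) = false := rfl

theorem iteratedDeriv_rho_zero (j : ℕ) : ∀ s : ℝ, 1 < |s| → iteratedDeriv j rho s = 0 := by
  induction j with
  | zero => exact fun s hs => by simpa using rho_zero_of hs.le
  | succ j ih =>
    intro s hs
    rw [iteratedDeriv_succ]
    have : iteratedDeriv j rho =ᶠ[nhds s] fun _ => 0 := by
      filter_upwards [continuous_abs.continuousAt.eventually (eventually_gt_nhds hs)] with r hr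
      exact ih r hr
    rw [this.deriv_eq]; simp

theorem loadTerm_vanish (q : ℚ) (ν t : ℝ) (x : Point) (h : 1 ≤ t) :
    termVal ν t x (loadTerm q) = 0 := by
  rw [loadTerm_val, loadBump_val, iteratedDeriv_rho_zero 1, mul_zero]
  rw [abs_of_nonneg (by linarith)]
  linarith

namespace Shears

variable (S : Shears)

/-- The velocity field: the periodic shears and the loader. -/
noncomputable def field (P : Fin 3 → ℚ) (t : ℝ) (x : Point) : Point :=
  S.vel t x + loadVel P t

theorem field_smooth (P : Fin 3 → ℚ) : ContDiff ℝ ∞ (Function.uncurry (S.field P)) := by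
  refine contDiff_pi.2 fun i => ?_
  refine ((S.vel_gen i).contDiff 0).add ?_
  exact (contDiff_const.mul (bumpVal_contDiff _)).comp contDiff_fst

/-- The force is a fixed list of periodic terms plus one loader term per component. -/
theorem exists_force : ∃ G : ForceCode, (∀ i, ∀ τ ∈ componentList G i,
      termValid τ ∧ isPeriodicTerm τ = true) ∧
    ∀ (P : Fin 3 → ℚ) (ν T : ℝ), 0 < T → IsClassicalSolution ν T
      (fun t x i => ((componentList G i).map (termVal ν t x)).sum + loadForce P t i)
      (S.field P) (fun _ _ => 0) := by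
  classical
  choose Vt hVtG hVt using fun i => (S.vel_gen i).exists_dt
  choose Vx hVxG hVx using fun i j => (S.vel_gen i).exists_dx j
  choose Vxx hVxxG hVxx using fun i j k => (hVxG i j).exists_dx k
  have hG : ∀ i, Gen fun ν t x =>
      Vt i ν t x + ∑ j, S.vel t x j * Vx i j ν t x - ν * ∑ j, Vxx i j j ν t x := fun i =>
    ((hVtG i).add (Gen.finsetSum _ fun j _ => (S.vel_gen j).mul (hVxG i j))).sub
      (Gen.nu.mul (Gen.finsetSum _ fun j _ => hVxxG i j j))
  choose L hL eL using fun i => (hG i).exists_terms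
  have hc : ∀ i, componentList (L 0, L 1, L 2) i = L i := by
    intro i; fin_cases i <;> rfl
  refine ⟨(L 0, L 1, L 2), fun i τ hτ => hL i τ (hc i ▸ hτ), fun P ν T hT => ?_⟩
  have hdiv : ∀ t x, ∑ j, Vx j j ν t x = 0 := by
    intro t x
    refine Finset.sum_eq_zero fun j _ => ?_
    refine (hVx j j ν t x).unique ?_
    have : (fun s => S.vel t (Function.update x j s) j) = fun _ => S.vel t x j := by
      funext s
      refine Finset.sum_congr rfl fun k _ => ?_
      split_ifs with h
      · rw [← h, S.indep]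
      · rfl
    rw [this]; exact hasDerivAt_const _ _
  have hcross : ∀ t x i j, loadVel P t j * Vx i j ν t x = 0 := by
    intro t x i j
    by_cases h : t ∈ Ioo (1 / 8 : ℝ) (3 / 8)
    · have hf : Int.fract t ∉ Ioo (1 / 2 : ℝ) (7 / 8) := by
        rw [Int.fract_eq_self.2 ⟨by linarith [h.1], by linarith [h.2]⟩]
        exact fun hh => by linarith [hh.1, h.2]
      have : Vx i j ν t x = 0 := by
        refine (hVx i j ν t x).unique ?_
        simp only [S.vel_zero hf, Pi.zero_apply]
        exact hasDerivAt_const _ _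
      rw [this, mul_zero]
    · rw [loadVel_zero P h, Pi.zero_apply, zero_mul]
  have hcont : ∀ {F : ℝ → ℝ → Point → ℝ}, Gen F → Continuous fun z : ℝ × Point => F ν z.1 z.2 :=
    fun h => (h.contDiff ν).continuous
  refine ⟨fun x => ?_, fun t _ x k => ⟨?_, rfl⟩, fun t _ => by simp,
    fun t x i => Vt i ν t x + loadForce P t i, fun t x j i => Vx i j ν t x,
    fun t x j k i => Vxx i j k ν t x, fun _ _ => 0,
    (S.field_smooth P).continuous.continuousOn, ?_, ?_, ?_, continuousOn_const,
    continuousOn_const, ?_⟩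
  · show S.vel 0 x + loadVel P 0 = 0
    rw [S.vel_zero (by norm_num), loadVel_zero P (by norm_num), add_zero]
  · funext i
    simp only [field, Pi.add_apply]
    rw [(S.vel_gen i).periodic 0 t x k]
  · refine (continuous_pi fun i => (hcont (hVtG i)).add ?_).continuousOn
    exact (continuous_const.mul (bumpVal_contDiff _).continuous).comp continuous_fst
  · exact (continuous_pi fun j => continuous_pi fun i => hcont (hVxG i j)).continuousOn
  · exact (continuous_pi fun j => continuous_pi fun k => continuous_pi fun i =>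
      hcont (hVxxG i j k)).continuousOn
  intro t ht x
  refine ⟨?_, fun j => ?_, fun j k => ?_, fun j => hasDerivAt_const _ _, hdiv t x, fun i => ?_⟩
  · exact (hasDerivAt_pi.2 fun i =>
      (hVt i ν t x).add (loadVel_hasDerivAt P t i)).hasDerivWithinAt
  · exact hasDerivAt_pi.2 fun i => (hVx i j ν t x).add_const (loadVel P t i)
  · exact hasDerivAt_pi.2 fun i => hVxx i j k ν t x
  · have hx : ∑ j, S.field P t x j * Vx i j ν t x = ∑ j, S.vel t x j * Vx i j ν t x := by
      refine Finset.sum_congr rfl fun j _ => ?_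
      rw [field, Pi.add_apply, add_mul, hcross, add_zero]
    simp only [hx, hc, eL, Pi.zero_apply, neg_zero]
    ring

end Shears

end Vale.Agent.P113
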