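import Vale.Agent.P113.Trajectory

/-!
# Realising a piecewise affine injective map by nine shears

The third coordinate is used as scratch space: to replace `x` by `g(x, y)`, where `x` can be
recovered from `y` and `g(x, y)`, one shears `z` by `g(x, y)`, then `x` by `z` minus the inverse,
then `z` by `-x`.
-/

namespace Vale.Agent.P113

open Set

/-- An affine function `u s + v t + w` on the box `[l, r] × [m, n]`. -/
structure Piece where
  /-- left end of the first side -/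
  l : ℚ
  /-- right end of the first side -/
  r : ℚ
  /-- left end of the second side -/
  m : ℚ
  /-- right end of the second side -/
  n : ℚ
  /-- first coefficient -/
  u : ℚ
  /-- second coefficient -/
  v : ℚ
  /-- constant coefficient -/
  w : ℚ

/-- A bump equal to `κ s^k` on `[l, r]` and supported `2d` around it. -/
def plateau (d l r : ℚ) (k : ℕ) : BumpCode :=
  (Sum.inr (ratCode ((r - l) / d + 2)), k, ratCode (1 / d), ratCode (l / d - 1))

theorem plateau_valid {d l r : ℚ} (hd : 0 < d) (hlr : l ≤ r) (k : ℕ) :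
    bumpValid (plateau d l r k) := by
  refine ⟨?_, ?_⟩
  · rw [ratCode_val]; exact_mod_cast (one_div_ne_zero hd.ne')
  · rw [ratCode_val]
    have : (0 : ℚ) ≤ (r - l) / d := div_nonneg (by linarith) hd.le
    exact_mod_cast (by linarith : (0 : ℚ) < (r - l) / d + 2)

/-- The plateau function of height one. -/
noncomputable def plat (d l r : ℚ) (k : ℕ) (y : ℝ) : ℝ :=
  kappa⁻¹ * periodize (bumpVal (plateau d l r k)) y

theorem plateau_val (d l r : ℚ) (k : ℕ) (y : ℝ) :
    bumpVal (plateau d l r k) y =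
      y ^ k * piEll (((r : ℝ) - l) / d + 2) (y / d - ((l : ℝ) / d - 1)) := by
  simp [plateau, bumpVal, profileVal, ratCode_val, div_eq_inv_mul]

theorem plat_eq {d l r : ℚ} (hd : 0 < d) (hd' : d ≤ 1 / 32) (hl : 0 ≤ l) (hlr : l ≤ r)
    (hr : r ≤ 7 / 8) (k : ℕ) {y : ℝ} (hy : y ∈ Icc (0 : ℝ) (7 / 8)) :
    ((l : ℝ) ≤ y → y ≤ (r : ℝ) → plat d l r k y = y ^ k) ∧
    (y + 2 * (d : ℝ) ≤ l ∨ (r : ℝ) + 2 * d ≤ y → plat d l r k y = 0) := by
  have hdR : (0 : ℝ) < d := by exact_mod_cast hd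
  have hdR' : (d : ℝ) ≤ 1 / 32 := by
    have := (Rat.cast_le (K := ℝ)).2 hd'
    push_cast at this; linarith
  have hlR : (0 : ℝ) ≤ l := by exact_mod_cast hl
  have hlrR : (l : ℝ) ≤ r := by exact_mod_cast hlr
  have hrR : (r : ℝ) ≤ 7 / 8 := by
    have := (Rat.cast_le (K := ℝ)).2 hr
    push_cast at this; linarith
  have hell : (0 : ℝ) ≤ ((r : ℝ) - l) / d + 2 := by
    have : (0 : ℝ) ≤ ((r : ℝ) - l) / d := div_nonneg (by linarith) hdR.le
    linarith
  have hzero : ∀ s : ℝ, s + 2 * d ≤ l ∨ (r : ℝ) + 2 * d ≤ s →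
      bumpVal (plateau d l r k) s = 0 := by
    intro s hs
    rw [plateau_val, piEll_zero hell, mul_zero]
    rcases hs with hs | hs
    · left
      have : (s + 2 * d) / d ≤ (l : ℝ) / d := (div_le_div_iff_of_pos_right hdR).2 hs
      rw [add_div, mul_div_assoc, div_self hdR.ne'] at this
      linarith
    · right
      have : ((r : ℝ) + 2 * d) / d ≤ s / d := (div_le_div_iff_of_pos_right hdR).2 hs
      rw [add_div, mul_div_assoc, div_self hdR.ne'] at this
      rw [sub_div]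
      linarith
  have hper : periodize (bumpVal (plateau d l r k)) y = bumpVal (plateau d l r k) y := by
    refine periodize_eq_self (c := -1 / 16) ⟨by linarith [hy.1], by linarith [hy.2]⟩ fun s hs => ?_
    by_contra hc
    apply hs
    apply hzero
    rw [mem_Ico, not_and_or, not_le, not_lt] at hc
    rcases hc with hc | hc
    · left; linarith
    · right; linarith
  refine ⟨fun h1 h2 => ?_, fun h => ?_⟩
  · rw [plat, hper, plateau_val, piEll_one]
    · field_simp [kappa_ne]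
    · have : (l : ℝ) / d ≤ y / d := (div_le_div_iff_of_pos_right hdR).2 h1
      linarith
    · have : y / d ≤ (r : ℝ) / d := (div_le_div_iff_of_pos_right hdR).2 h2
      rw [sub_div]
      linarith
  · rw [plat, hper, hzero y h, mul_zero]

/-- The periodic function of coordinates `p`, `q` made from a family of pieces. -/
noncomputable def boxFun {ι : Type} [Fintype ι] (d : ℚ) (p q : Fin 3) (P : ι → Piece)
    (x : Point) : ℝ :=
  ∑ i, ((((P i).u : ℚ) : ℝ) * (plat d (P i).l (P i).r 1 (x p) * plat d (P i).m (P i).n 0 (x q))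
    + ((((P i).v : ℚ) : ℝ) * (plat d (P i).l (P i).r 0 (x p) * plat d (P i).m (P i).n 1 (x q))
    + (((P i).w : ℚ) : ℝ) * (plat d (P i).l (P i).r 0 (x p) * plat d (P i).m (P i).n 0 (x q))))

/-- The pieces are boxes inside `[0, 7/8]²` any two of which are `2d` apart. -/
def Piece.Sep {ι : Type} (d : ℚ) (P : ι → Piece) : Prop :=
  (∀ i, 0 ≤ (P i).l ∧ (P i).l ≤ (P i).r ∧ (P i).r ≤ 7 / 8 ∧
    0 ≤ (P i).m ∧ (P i).m ≤ (P i).n ∧ (P i).n ≤ 7 / 8) ∧
  ∀ i j, i ≠ j → (P i).r + 2 * d ≤ (P j).l ∨ (P j).r + 2 * d ≤ (P i).l ∨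
    (P i).n + 2 * d ≤ (P j).m ∨ (P j).n + 2 * d ≤ (P i).m

theorem boxFun_gen {ι : Type} [Fintype ι] {d : ℚ} (hd : 0 < d) (p q : Fin 3) (P : ι → Piece)
    (h : ∀ i, (P i).l ≤ (P i).r ∧ (P i).m ≤ (P i).n) :
    Gen fun _ _ x => boxFun d p q P x := by
  have hp : ∀ (l r : ℚ), l ≤ r → ∀ (k : ℕ) (i : Fin 3),
      Gen fun _ _ x => plat d l r k (x i) := fun l r hlr k i =>
    Gen.kinv.mul (Gen.space _ (plateau_valid hd hlr k) i)
  exact Gen.finsetSum _ fun i _ =>
    (((hp _ _ (h i).1 1 p).mul (hp _ _ (h i).2 0 q)).smul _).add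
      ((((hp _ _ (h i).1 0 p).mul (hp _ _ (h i).2 1 q)).smul _).add
        (((hp _ _ (h i).1 0 p).mul (hp _ _ (h i).2 0 q)).smul _))

theorem boxFun_indep {ι : Type} [Fintype ι] (d : ℚ) {p q a : Fin 3} (hp : p ≠ a) (hq : q ≠ a)
    (P : ι → Piece) (x : Point) (s : ℝ) :
    boxFun d p q P (Function.update x a s) = boxFun d p q P x := by
  simp only [boxFun, Function.update_of_ne hp, Function.update_of_ne hq]

theorem boxFun_eval {ι : Type} [Fintype ι] {d : ℚ} (hd : 0 < d) (hd' : d ≤ 1 / 32) (p q : Fin 3)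
    {P : ι → Piece} (hP : Piece.Sep d P) (j : ι) (x : Point)
    (h1 : ((P j).l : ℝ) ≤ x p) (h2 : x p ≤ ((P j).r : ℝ))
    (h3 : ((P j).m : ℝ) ≤ x q) (h4 : x q ≤ ((P j).n : ℝ)) :
    boxFun d p q P x = (P j).u * x p + (P j).v * x q + (P j).w := by
  obtain ⟨hl, hlr, hr, hm, hmn, hn⟩ := hP.1 j
  have cast78 : ∀ {a : ℚ}, a ≤ 7 / 8 → (a : ℝ) ≤ 7 / 8 := by
    intro a ha
    have := (Rat.cast_le (K := ℝ)).2 ha
    push_cast at this; linarith
  have hxp : x p ∈ Icc (0 : ℝ) (7 / 8) :=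
    ⟨le_trans (by exact_mod_cast hl) h1, h2.trans (cast78 hr)⟩
  have hxq : x q ∈ Icc (0 : ℝ) (7 / 8) :=
    ⟨le_trans (by exact_mod_cast hm) h3, h4.trans (cast78 hn)⟩
  unfold boxFun
  rw [Finset.sum_eq_single j]
  · rw [(plat_eq hd hd' hl hlr hr 1 hxp).1 h1 h2, (plat_eq hd hd' hl hlr hr 0 hxp).1 h1 h2,
      (plat_eq hd hd' hm hmn hn 1 hxq).1 h3 h4, (plat_eq hd hd' hm hmn hn 0 hxq).1 h3 h4]
    ring
  · intro i _ hij
    obtain ⟨hl', hlr', hr', hm', hmn', hn'⟩ := hP.1 i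
    rcases hP.2 i j hij with h | h | h | h
    · have h' : ((P i).r : ℝ) + 2 * d ≤ x p := le_trans (by exact_mod_cast h) h1
      simp [(plat_eq hd hd' hl' hlr' hr' 1 hxp).2 (Or.inr h'),
        (plat_eq hd hd' hl' hlr' hr' 0 hxp).2 (Or.inr h')]
    · have h' : x p + 2 * (d : ℝ) ≤ (P i).l := by
        have : ((P j).r : ℝ) + 2 * d ≤ (P i).l := by exact_mod_cast h
        linarith
      simp [(plat_eq hd hd' hl' hlr' hr' 1 hxp).2 (Or.inl h'),
        (plat_eq hd hd' hl' hlr' hr' 0 hxp).2 (Or.inl h')]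
    · have h' : ((P i).n : ℝ) + 2 * d ≤ x q := le_trans (by exact_mod_cast h) h3
      simp [(plat_eq hd hd' hm' hmn' hn' 1 hxq).2 (Or.inr h'),
        (plat_eq hd hd' hm' hmn' hn' 0 hxq).2 (Or.inr h')]
    · have h' : x q + 2 * (d : ℝ) ≤ (P i).m := by
        have : ((P j).n : ℝ) + 2 * d ≤ (P i).m := by exact_mod_cast h
        linarith
      simp [(plat_eq hd hd' hm' hmn' hn' 1 hxq).2 (Or.inl h'),
        (plat_eq hd hd' hm' hmn' hn' 0 hxq).2 (Or.inl h')]
  · intro h; exact absurd (Finset.mem_univ j) h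

/-- A rule: on the source box `[lx, hx] × [ly, hy]`, send `x` to `a x + b` and `y` to `c y + e`. -/
structure Rule where
  /-- left end of the source in `x` -/
  lx : ℚ
  /-- right end of the source in `x` -/
  hx : ℚ
  /-- left end of the source in `y` -/
  ly : ℚ
  /-- right end of the source in `y` -/
  hy : ℚ
  /-- slope in `x` -/
  a : ℚ
  /-- offset in `x` -/
  b : ℚ
  /-- slope in `y` -/
  c : ℚ
  /-- offset in `y` -/
  e : ℚ

/-- A family of rules with disjoint sources and disjoint targets inside `[0, 7/8]²`. -/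
structure Rules where
  /-- the number of rules -/
  N : ℕ
  /-- the rules -/
  rule : Fin N → Rule
  ha : ∀ i, 0 < (rule i).a
  hc : ∀ i, 0 < (rule i).c
  src : ∀ i, 0 ≤ (rule i).lx ∧ (rule i).lx ≤ (rule i).hx ∧ (rule i).hx ≤ 7 / 8 ∧
    0 ≤ (rule i).ly ∧ (rule i).ly ≤ (rule i).hy ∧ (rule i).hy ≤ 7 / 8
  tgt : ∀ i, 0 ≤ (rule i).a * (rule i).lx + (rule i).b ∧
    (rule i).a * (rule i).hx + (rule i).b ≤ 7 / 8 ∧
    0 ≤ (rule i).c * (rule i).ly + (rule i).e ∧ (rule i).c * (rule i).hy + (rule i).e ≤ 7 / 8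
  srcDisj : ∀ i j, i ≠ j → (rule i).hx < (rule j).lx ∨ (rule j).hx < (rule i).lx ∨
    (rule i).hy < (rule j).ly ∨ (rule j).hy < (rule i).ly
  tgtDisj : ∀ i j, i ≠ j →
    (rule i).a * (rule i).hx + (rule i).b < (rule j).a * (rule j).lx + (rule j).b ∨
    (rule j).a * (rule j).hx + (rule j).b < (rule i).a * (rule i).lx + (rule i).b ∨
    (rule i).c * (rule i).hy + (rule i).e < (rule j).c * (rule j).ly + (rule j).e ∨
    (rule j).c * (rule j).hy + (rule j).e < (rule i).c * (rule i).ly + (rule i).e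

namespace Rules

variable (R : Rules)

/-- The width factor of a tag interval. -/
def eps : ℚ := 1 / (64 * (R.N + 1))

/-- The left end of the tag interval of rule `i`. -/
def tag (i : Fin R.N) : ℚ := 1 / 16 + 4 * (i : ℕ) * R.eps

/-- The right end of the tag interval of rule `i`. -/
def tagR (i : Fin R.N) : ℚ := R.tag i + R.eps * ((R.rule i).hx - (R.rule i).lx)

theorem eps_pos : 0 < R.eps := by unfold eps; positivity

theorem tag_bounds (i : Fin R.N) : 1 / 16 ≤ R.tag i ∧ R.tag i ≤ R.tagR i ∧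
    R.tagR i ≤ R.tag i + R.eps ∧ R.tag i + R.eps ≤ 3 / 16 := by
  have h := R.src i
  have he := R.eps_pos
  have h4 : (4 : ℚ) * (i : ℕ) * R.eps + R.eps ≤ 1 / 8 := by
    have hi : ((i : ℕ) : ℚ) + 1 ≤ (R.N : ℚ) + 1 := by
      have : (i : ℕ) + 1 ≤ R.N + 1 := by omega
      exact_mod_cast this
    have hN : R.eps * (64 * (R.N + 1)) = 1 := by
      unfold eps; field_simp
    nlinarith
  refine ⟨?_, ?_, ?_, ?_⟩ <;> simp only [tagR, tag] <;> nlinarith

theorem tag_sep {d : ℚ} (hd : d ≤ R.eps) (i j : Fin R.N) (h : i ≠ j) :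
    R.tagR i + 2 * d ≤ R.tag j ∨ R.tagR j + 2 * d ≤ R.tag i := by
  have he := R.eps_pos
  have hi := (R.tag_bounds i).2.2.1
  have hj := (R.tag_bounds j).2.2.1
  rcases lt_or_gt_of_ne h with h' | h'
  · left
    have : ((i : ℕ) : ℚ) + 1 ≤ (j : ℕ) := by exact_mod_cast h'
    unfold tag at *
    nlinarith
  · right
    have : ((j : ℕ) : ℚ) + 1 ≤ (i : ℕ) := by exact_mod_cast h'
    unfold tag at *
    nlinarith

theorem exists_margin : ∃ d : ℚ, 0 < d ∧ d ≤ 1 / 32 ∧ d ≤ R.eps ∧ ∀ i j, i ≠ j →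
    ((R.rule i).hx + 2 * d ≤ (R.rule j).lx ∨ (R.rule j).hx + 2 * d ≤ (R.rule i).lx ∨
      (R.rule i).hy + 2 * d ≤ (R.rule j).ly ∨ (R.rule j).hy + 2 * d ≤ (R.rule i).ly) ∧
    ((R.rule i).a * (R.rule i).hx + (R.rule i).b + 2 * d
        ≤ (R.rule j).a * (R.rule j).lx + (R.rule j).b ∨
      (R.rule j).a * (R.rule j).hx + (R.rule j).b + 2 * d
        ≤ (R.rule i).a * (R.rule i).lx + (R.rule i).b ∨
      (R.rule i).c * (R.rule i).hy + (R.rule i).e + 2 * d
        ≤ (R.rule j).c * (R.rule j).ly + (R.rule j).e ∨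
      (R.rule j).c * (R.rule j).hy + (R.rule j).e + 2 * d
        ≤ (R.rule i).c * (R.rule i).ly + (R.rule i).e) := by
  have key : ∀ A B : ℚ, A < B → ∀ᶠ d in nhdsWithin (0 : ℚ) (Ioi 0), A + 2 * d ≤ B := by
    intro A B h
    filter_upwards [nhdsWithin_le_nhds (Iio_mem_nhds (show (0 : ℚ) < (B - A) / 2 by linarith))]
      with d hd
    rw [mem_Iio] at hd; linarith
  have four : ∀ A₁ B₁ A₂ B₂ A₃ B₃ A₄ B₄ : ℚ, (A₁ < B₁ ∨ A₂ < B₂ ∨ A₃ < B₃ ∨ A₄ < B₄) →
      ∀ᶠ d in nhdsWithin (0 : ℚ) (Ioi 0),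
        A₁ + 2 * d ≤ B₁ ∨ A₂ + 2 * d ≤ B₂ ∨ A₃ + 2 * d ≤ B₃ ∨ A₄ + 2 * d ≤ B₄ := by
    rintro A₁ B₁ A₂ B₂ A₃ B₃ A₄ B₄ (h | h | h | h) <;>
      filter_upwards [key _ _ h] with d hd <;> tauto
  have pairs : ∀ (i j : Fin R.N) (h : i ≠ j), _ := fun i j h =>
    (four _ _ _ _ _ _ _ _ (R.srcDisj i j h)).and (four _ _ _ _ _ _ _ _ (R.tgtDisj i j h))
  have hall := (Filter.eventually_all (ι := {q : Fin R.N × Fin R.N // q.1 ≠ q.2})).2
    fun q => pairs q.1.1 q.1.2 q.2
  have he := R.eps_pos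
  have hpos : ∀ᶠ d in nhdsWithin (0 : ℚ) (Ioi 0), d ∈ Ioi (0 : ℚ) := eventually_mem_nhdsWithin
  have hlt : ∀ᶠ d in nhdsWithin (0 : ℚ) (Ioi 0), d ∈ Iio (min (1 / 32) R.eps) :=
    nhdsWithin_le_nhds (Iio_mem_nhds (lt_min (by norm_num) he))
  obtain ⟨d, ⟨h1, h2⟩, h3⟩ := ((hpos.and hlt).and hall).exists
  exact ⟨d, h1, (mem_Iio.1 h2).le.trans (min_le_left _ _),
    (mem_Iio.1 h2).le.trans (min_le_right _ _), fun i j h => h3 ⟨(i, j), h⟩⟩

/-- The pieces used in the nine phases. -/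
def srcPiece (i : Fin R.N) : Piece :=
  ⟨(R.rule i).lx, (R.rule i).hx, (R.rule i).ly, (R.rule i).hy, R.eps, 0,
    R.tag i - R.eps * (R.rule i).lx⟩

/-- Pieces on tag intervals times `[0, 7/8]`. -/
def tagPiece (i : Fin R.N) (u v w : ℚ) : Piece :=
  ⟨R.tag i, R.tagR i, 0, 7 / 8, u, v, w⟩

/-- Pieces on target boxes. -/
def tgtPiece (i : Fin R.N) : Piece :=
  ⟨(R.rule i).a * (R.rule i).lx + (R.rule i).b, (R.rule i).a * (R.rule i).hx + (R.rule i).b,
    (R.rule i).c * (R.rule i).ly + (R.rule i).e, (R.rule i).c * (R.rule i).hy + (R.rule i).e,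
    1 - R.eps / (R.rule i).a, 0,
    R.eps * (R.rule i).b / (R.rule i).a + R.eps * (R.rule i).lx - R.tag i⟩

/-- The piece `-s` on `[0, 7/8]²`. -/
def negPiece : Unit → Piece := fun _ => ⟨0, 7 / 8, 0, 7 / 8, -1, 0, 0⟩

theorem tagPiece_sep {d : ℚ} (hd : d ≤ R.eps) (f : Fin R.N → ℚ × ℚ × ℚ) :
    Piece.Sep d fun i => R.tagPiece i (f i).1 (f i).2.1 (f i).2.2 := by
  refine ⟨fun i => ?_, fun i j h => ?_⟩
  · obtain ⟨h1, h2, h3, h4⟩ := R.tag_bounds i
    exact ⟨(by norm_num : (0 : ℚ) ≤ 1 / 16).trans h1, h2, by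
      simp only [tagPiece]; linarith, le_rfl, by simp [tagPiece]; norm_num, le_rfl⟩
  · rcases R.tag_sep hd i j h with h' | h'
    · exact Or.inl h'
    · exact Or.inr (Or.inl h')

/-- The point `(x, y, 0)`. -/
def flat (x y : ℝ) : Point := ![x, y, 0]

theorem update0 (a b c v : ℝ) : Function.update (![a, b, c] : Point) 0 v = ![v, b, c] := by
  funext i; fin_cases i <;> simp

theorem update1 (a b c v : ℝ) : Function.update (![a, b, c] : Point) 1 v = ![a, v, c] := by
  funext i; fin_cases i <;> simp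

theorem update2 (a b c v : ℝ) : Function.update (![a, b, c] : Point) 2 v = ![a, b, v] := by
  funext i; fin_cases i <;> simp

theorem negPiece_sep (d : ℚ) : Piece.Sep d negPiece :=
  ⟨fun _ => by simp only [negPiece]; norm_num, fun i j h => absurd (Subsingleton.elim i j) h⟩

theorem affine_mem {a : ℚ} (ha : 0 < a) (b l h : ℚ) {s : ℝ} (h1 : (l : ℝ) ≤ s) (h2 : s ≤ (h : ℝ)) :
    ((a * l + b : ℚ) : ℝ) ≤ (a : ℝ) * s + b ∧ (a : ℝ) * s + b ≤ ((a * h + b : ℚ) : ℝ) := by
  have haR : (0 : ℝ) < a := by exact_mod_cast ha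
  push_cast
  constructor <;> nlinarith

/-- The pieces of phase two. -/
def piece2 (i : Fin R.N) : Piece :=
  R.tagPiece i (1 - 1 / R.eps) 0 (R.tag i / R.eps - (R.rule i).lx)

/-- The pieces of phase four. -/
def piece4 (i : Fin R.N) : Piece := R.tagPiece i 0 (R.rule i).c (R.rule i).e

/-- The pieces of phase five. -/
def piece5 (i : Fin R.N) : Piece :=
  R.tagPiece i 0 (1 - 1 / (R.rule i).c) ((R.rule i).e / (R.rule i).c)

/-- The pieces of phase seven. -/
def piece7 (i : Fin R.N) : Piece :=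
  R.tagPiece i ((R.rule i).a / R.eps) 0
    ((R.rule i).a * ((R.rule i).lx - R.tag i / R.eps) + (R.rule i).b)

/-- The coordinates moved in the nine phases. -/
def phaseAxis : Fin (8 + 1) → Fin 3 := ![2, 0, 2, 2, 1, 2, 2, 0, 2]

/-- The amounts of the nine phases. -/
noncomputable def phaseAmount (d : ℚ) : Fin (8 + 1) → Point → ℝ :=
  ![boxFun d 0 1 R.srcPiece, boxFun d 2 1 R.piece2, boxFun d 0 1 negPiece, boxFun d 0 1 R.piece4,
    boxFun d 0 2 R.piece5, boxFun d 1 0 negPiece, boxFun d 0 1 R.piece7, boxFun d 2 1 R.tgtPiece,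
    boxFun d 0 1 negPiece]

theorem piece_ok (f : Fin R.N → ℚ × ℚ × ℚ) (i : Fin R.N) :
    (R.tagPiece i (f i).1 (f i).2.1 (f i).2.2).l ≤ (R.tagPiece i (f i).1 (f i).2.1 (f i).2.2).r ∧
      (R.tagPiece i (f i).1 (f i).2.1 (f i).2.2).m ≤ (R.tagPiece i (f i).1 (f i).2.1 (f i).2.2).n :=
  ⟨(R.tag_bounds i).2.1, by simp only [tagPiece]; norm_num⟩

theorem phaseAmount_gen {d : ℚ} (hd : 0 < d) (j : Fin (8 + 1)) :
    Gen fun _ _ x => R.phaseAmount d j x := by
  have hs : ∀ i, (R.srcPiece i).l ≤ (R.srcPiece i).r ∧ (R.srcPiece i).m ≤ (R.srcPiece i).n :=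
    fun i => ⟨(R.src i).2.1, (R.src i).2.2.2.2.1⟩
  have ht : ∀ i, (R.tgtPiece i).l ≤ (R.tgtPiece i).r ∧ (R.tgtPiece i).m ≤ (R.tgtPiece i).n := by
    intro i
    obtain ⟨-, s2, -, -, s5, -⟩ := R.src i
    have ha := R.ha i
    have hc := R.hc i
    simp only [tgtPiece]
    constructor <;> nlinarith
  have hn : ∀ i, (negPiece i).l ≤ (negPiece i).r ∧ (negPiece i).m ≤ (negPiece i).n :=
    fun _ => by simp only [negPiece]; norm_num
  have hT : ∀ f i, _ := R.piece_ok
  fin_cases j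
  · exact boxFun_gen hd 0 1 _ hs
  · exact boxFun_gen hd 2 1 R.piece2 (hT fun i => (_, _, _))
  · exact boxFun_gen hd 0 1 _ hn
  · exact boxFun_gen hd 0 1 R.piece4 (hT fun i => (_, _, _))
  · exact boxFun_gen hd 0 2 R.piece5 (hT fun i => (_, _, _))
  · exact boxFun_gen hd 1 0 _ hn
  · exact boxFun_gen hd 0 1 R.piece7 (hT fun i => (_, _, _))
  · exact boxFun_gen hd 2 1 _ ht
  · exact boxFun_gen hd 0 1 _ hn

theorem phaseAmount_indep (d : ℚ) (j : Fin (8 + 1)) (x : Point) (s : ℝ) :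
    R.phaseAmount d j (Function.update x (phaseAxis j) s) = R.phaseAmount d j x := by
  fin_cases j
  · exact boxFun_indep d (p := 0) (q := 1) (a := 2) (by decide) (by decide) R.srcPiece x s
  · exact boxFun_indep d (p := 2) (q := 1) (a := 0) (by decide) (by decide) R.piece2 x s
  · exact boxFun_indep d (p := 0) (q := 1) (a := 2) (by decide) (by decide) negPiece x s
  · exact boxFun_indep d (p := 0) (q := 1) (a := 2) (by decide) (by decide) R.piece4 x s
  · exact boxFun_indep d (p := 0) (q := 2) (a := 1) (by decide) (by decide) R.piece5 x s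
  · exact boxFun_indep d (p := 1) (q := 0) (a := 2) (by decide) (by decide) negPiece x s
  · exact boxFun_indep d (p := 0) (q := 1) (a := 2) (by decide) (by decide) R.piece7 x s
  · exact boxFun_indep d (p := 2) (q := 1) (a := 0) (by decide) (by decide) R.tgtPiece x s
  · exact boxFun_indep d (p := 0) (q := 1) (a := 2) (by decide) (by decide) negPiece x s

/-- The nine shears. -/
noncomputable def shearsOf {d : ℚ} (hd : 0 < d) : Shears :=
  ⟨8, phaseAxis, R.phaseAmount d, R.phaseAmount_gen hd, R.phaseAmount_indep d⟩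

theorem exists_shears : ∃ S : Shears, ∀ (i : Fin R.N) (x y : ℝ),
    ((R.rule i).lx : ℝ) ≤ x → x ≤ ((R.rule i).hx : ℝ) →
    ((R.rule i).ly : ℝ) ≤ y → y ≤ ((R.rule i).hy : ℝ) →
    S.stepPoint (flat x y) =
      flat ((R.rule i).a * x + (R.rule i).b) ((R.rule i).c * y + (R.rule i).e) ∧
    ∀ k : ℕ, S.mid (flat x y) k 0 = x ∨ S.mid (flat x y) k 0 ∈ Icc (1 / 16 : ℝ) (3 / 16) ∨
      S.mid (flat x y) k 0 = (R.rule i).a * x + (R.rule i).b := by
  obtain ⟨d, hd, hd32, hde, hsep⟩ := R.exists_margin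
  have hsrc : Piece.Sep d R.srcPiece :=
    ⟨fun i => R.src i, fun i j h => (hsep i j h).1⟩
  have htgt : Piece.Sep d R.tgtPiece := by
    refine ⟨fun i => ?_, fun i j h => (hsep i j h).2⟩
    obtain ⟨t1, t2, t3, t4⟩ := R.tgt i
    obtain ⟨-, s2, -, -, s5, -⟩ := R.src i
    exact ⟨t1, by simp only [tgtPiece]; nlinarith [R.ha i], t2, t3,
      by simp only [tgtPiece]; nlinarith [R.hc i], t4⟩
  have sT2 : Piece.Sep d R.piece2 := R.tagPiece_sep hde fun i => (_, _, _)
  have sT4 : Piece.Sep d R.piece4 := R.tagPiece_sep hde fun i => (_, _, _)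
  have sT5 : Piece.Sep d R.piece5 := R.tagPiece_sep hde fun i => (_, _, _)
  have sT7 : Piece.Sep d R.piece7 := R.tagPiece_sep hde fun i => (_, _, _)
  refine ⟨R.shearsOf hd, ?_⟩
  intro i x y hx1 hx2 hy1 hy2
  obtain ⟨s1, s2, s3, s4, s5, s6⟩ := R.src i
  obtain ⟨t1, t2, t3, t4⟩ := R.tgt i
  obtain ⟨g1, g2, g3, g4⟩ := R.tag_bounds i
  have hεR : (0 : ℝ) < R.eps := by exact_mod_cast R.eps_pos
  have haR : (0 : ℝ) < (R.rule i).a := by exact_mod_cast R.ha i
  have hcR : (0 : ℝ) < (R.rule i).c := by exact_mod_cast R.hc i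
  have c78 : ∀ {a : ℚ}, a ≤ 7 / 8 → (a : ℝ) ≤ 7 / 8 := by
    intro a ha
    have := (Rat.cast_le (K := ℝ)).2 ha
    push_cast at this; linarith
  set g : ℝ := (R.eps : ℝ) * x + ((R.tag i : ℝ) - R.eps * (R.rule i).lx) with hg
  set X : ℝ := (R.rule i).a * x + (R.rule i).b with hX
  set Y : ℝ := (R.rule i).c * y + (R.rule i).e with hY
  obtain ⟨gl, gr⟩ : ((R.tag i : ℚ) : ℝ) ≤ g ∧ g ≤ ((R.tagR i : ℚ) : ℝ) := by
    rw [hg, tagR]; push_cast
    constructor <;> nlinarith
  have g16 : (1 / 16 : ℝ) ≤ g := by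
    have := (Rat.cast_le (K := ℝ)).2 g1
    push_cast at this; linarith
  have g316 : g ≤ 3 / 16 := by
    have := (Rat.cast_le (K := ℝ)).2 (g3.trans g4)
    push_cast at this; linarith
  obtain ⟨Xl, Xr⟩ := affine_mem (R.ha i) (R.rule i).b _ _ hx1 hx2
  obtain ⟨Yl, Yr⟩ := affine_mem (R.hc i) (R.rule i).e _ _ hy1 hy2
  have y0 : (0 : ℝ) ≤ y := le_trans (by exact_mod_cast s4) hy1
  have y78 : y ≤ 7 / 8 := hy2.trans (c78 s6)
  have X0 : (0 : ℝ) ≤ X := le_trans (by exact_mod_cast t1) Xl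
  have X78 : X ≤ 7 / 8 := Xr.trans (c78 t2)
  have Y0 : (0 : ℝ) ≤ Y := le_trans (by exact_mod_cast t3) Yl
  have Y78 : Y ≤ 7 / 8 := Yr.trans (c78 t4)
  have e1 : boxFun d 0 1 R.srcPiece ![x, y, 0] = g := by
    rw [boxFun_eval hd hd32 0 1 hsrc i ![x, y, 0] (by simpa [srcPiece] using hx1)
      (by simpa [srcPiece] using hx2) (by simpa [srcPiece] using hy1)
      (by simpa [srcPiece] using hy2)]
    simp [srcPiece, hg]
  have e2 : boxFun d 2 1 R.piece2 ![x, y, g] = g - x := by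
    rw [boxFun_eval hd hd32 2 1 sT2 i ![x, y, g] (by simpa [piece2, tagPiece] using gl)
      (by simpa [piece2, tagPiece] using gr) (by simpa [piece2, tagPiece] using y0)
      (by simpa [piece2, tagPiece] using y78)]
    simp [piece2, tagPiece, hg]
    field_simp
    ring
  have e3 : ∀ a b c, a ∈ Icc (0 : ℝ) (7 / 8) → b ∈ Icc (0 : ℝ) (7 / 8) →
      boxFun d 0 1 negPiece ![a, b, c] = -a := by
    intro a b c ha hb
    rw [boxFun_eval hd hd32 0 1 (negPiece_sep d) () ![a, b, c] (by simpa [negPiece] using ha.1)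
      (by simpa [negPiece] using ha.2) (by simpa [negPiece] using hb.1)
      (by simpa [negPiece] using hb.2)]
    simp [negPiece]
  have e4 : boxFun d 0 1 R.piece4 ![g, y, 0] = Y := by
    rw [boxFun_eval hd hd32 0 1 sT4 i ![g, y, 0] (by simpa [piece4, tagPiece] using gl)
      (by simpa [piece4, tagPiece] using gr) (by simpa [piece4, tagPiece] using y0)
      (by simpa [piece4, tagPiece] using y78)]
    simp [piece4, tagPiece, hY]
  have e5 : boxFun d 0 2 R.piece5 ![g, y, Y] = Y - y := by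
    rw [boxFun_eval hd hd32 0 2 sT5 i ![g, y, Y] (by simpa [piece5, tagPiece] using gl)
      (by simpa [piece5, tagPiece] using gr) (by simpa [piece5, tagPiece] using Y0)
      (by simpa [piece5, tagPiece] using Y78)]
    simp [piece5, tagPiece, hY]
    field_simp
    ring
  have e6 : boxFun d 1 0 negPiece ![g, Y, Y] = -Y := by
    rw [boxFun_eval hd hd32 1 0 (negPiece_sep d) () ![g, Y, Y] (by simpa [negPiece] using Y0)
      (by simpa [negPiece] using Y78) (by simp [negPiece]; linarith)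
      (by simp [negPiece]; linarith)]
    simp [negPiece]
  have e7 : boxFun d 0 1 R.piece7 ![g, Y, 0] = X := by
    rw [boxFun_eval hd hd32 0 1 sT7 i ![g, Y, 0] (by simpa [piece7, tagPiece] using gl)
      (by simpa [piece7, tagPiece] using gr) (by simpa [piece7, tagPiece] using Y0)
      (by simpa [piece7, tagPiece] using Y78)]
    simp [piece7, tagPiece, hX, hg]
    field_simp
    ring
  have e8 : boxFun d 2 1 R.tgtPiece ![g, Y, X] = X - g := by
    rw [boxFun_eval hd hd32 2 1 htgt i ![g, Y, X] Xl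
      Xr Yl
      Yr]
    simp [tgtPiece, hX, hg]
    field_simp
    ring
  have e3a : boxFun d 0 1 negPiece ![g, y, g] = -g :=
    e3 g y g ⟨by linarith, by linarith⟩ ⟨y0, y78⟩
  have e9 : boxFun d 0 1 negPiece ![X, Y, X] = -X := e3 X Y X ⟨X0, X78⟩ ⟨Y0, Y78⟩
  set S : Shears := R.shearsOf hd with hS
  have m0 : S.mid (flat x y) 0 = ![x, y, 0] := rfl
  have stp : ∀ (k : ℕ) (hk : k < 8 + 1) (v : Point), S.mid (flat x y) k = v →
      S.mid (flat x y) (k + 1) = Function.update v (phaseAxis ⟨k, hk⟩)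
        (v (phaseAxis ⟨k, hk⟩) + R.phaseAmount d ⟨k, hk⟩ v) := by
    intro k hk v hv
    rw [Shears.mid, dif_pos (show k < S.n + 1 from hk), hv]
    rfl
  have m1 : S.mid (flat x y) 1 = ![x, y, g] := by
    refine (stp 0 (by norm_num) _ m0).trans ?_
    show Function.update (![x, y, 0] : Point) (2 : Fin 3) ((![x, y, 0] : Point) (2 : Fin 3) + boxFun d 0 1 R.srcPiece ![x, y, 0]) = _
    rw [e1, update2]
    simp
  have m2 : S.mid (flat x y) 2 = ![g, y, g] := by
    refine (stp 1 (by norm_num) _ m1).trans ?_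
    show Function.update (![x, y, g] : Point) (0 : Fin 3) ((![x, y, g] : Point) (0 : Fin 3) + boxFun d 2 1 R.piece2 ![x, y, g]) = _
    rw [e2, update0]
    simp
  have m3 : S.mid (flat x y) 3 = ![g, y, 0] := by
    refine (stp 2 (by norm_num) _ m2).trans ?_
    show Function.update (![g, y, g] : Point) (2 : Fin 3) ((![g, y, g] : Point) (2 : Fin 3) + boxFun d 0 1 negPiece ![g, y, g]) = _
    rw [e3a, update2]
    simp
  have m4 : S.mid (flat x y) 4 = ![g, y, Y] := by
    refine (stp 3 (by norm_num) _ m3).trans ?_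
    show Function.update (![g, y, 0] : Point) (2 : Fin 3) ((![g, y, 0] : Point) (2 : Fin 3) + boxFun d 0 1 R.piece4 ![g, y, 0]) = _
    rw [e4, update2]
    simp
  have m5 : S.mid (flat x y) 5 = ![g, Y, Y] := by
    refine (stp 4 (by norm_num) _ m4).trans ?_
    show Function.update (![g, y, Y] : Point) (1 : Fin 3) ((![g, y, Y] : Point) (1 : Fin 3) + boxFun d 0 2 R.piece5 ![g, y, Y]) = _
    rw [e5, update1]
    simp
  have m6 : S.mid (flat x y) 6 = ![g, Y, 0] := by
    refine (stp 5 (by norm_num) _ m5).trans ?_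
    show Function.update (![g, Y, Y] : Point) (2 : Fin 3) ((![g, Y, Y] : Point) (2 : Fin 3) + boxFun d 1 0 negPiece ![g, Y, Y]) = _
    rw [e6, update2]
    simp
  have m7 : S.mid (flat x y) 7 = ![g, Y, X] := by
    refine (stp 6 (by norm_num) _ m6).trans ?_
    show Function.update (![g, Y, 0] : Point) (2 : Fin 3) ((![g, Y, 0] : Point) (2 : Fin 3) + boxFun d 0 1 R.piece7 ![g, Y, 0]) = _
    rw [e7, update2]
    simp
  have m8 : S.mid (flat x y) 8 = ![X, Y, X] := by
    refine (stp 7 (by norm_num) _ m7).trans ?_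
    show Function.update (![g, Y, X] : Point) (0 : Fin 3) ((![g, Y, X] : Point) (0 : Fin 3) + boxFun d 2 1 R.tgtPiece ![g, Y, X]) = _
    rw [e8, update0]
    simp
  have m9 : S.mid (flat x y) 9 = ![X, Y, 0] := by
    refine (stp 8 (by norm_num) _ m8).trans ?_
    show Function.update (![X, Y, X] : Point) (2 : Fin 3) ((![X, Y, X] : Point) (2 : Fin 3) + boxFun d 0 1 negPiece ![X, Y, X]) = _
    rw [e9, update2]
    simp
  refine ⟨m9, fun k => ?_⟩
  rcases lt_or_ge k 10 with hk | hk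
  · interval_cases k <;>
      simp [m0, m1, m2, m3, m4, m5, m6, m7, m8, m9] <;> norm_num at g16 g316 ⊢ <;> tauto
  · right; right
    have : ∀ j, 9 ≤ j → S.mid (flat x y) j = ![X, Y, 0] := by
      intro j hj
      induction j, hj using Nat.le_induction with
      | base => exact m9
      | succ j hj ih =>
        rw [Shears.mid, dif_neg (show ¬ j < S.n + 1 from Nat.not_lt.2 hj), ih]
    simp [this k (by omega)]

end Rules

end Vale.Agent.P113
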