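import Vale.Agent.P113.Defs

/-!
# Halting is semidecidable
-/

namespace Vale.Agent.P113

open Turing Encodable

/-- A configuration given by lists: state, left half (nearest cell first), head, right half. -/
abbrev LCfg := ℕ × List ℕ × ℕ × List ℕ

/-- The configuration represented by lists. -/
def LCfg.toConfig (c : LCfg) : Config :=
  (c.1, ⟨c.2.2.1, ListBlank.mk c.2.1, ListBlank.mk c.2.2.2⟩)

/-- Membership, written as a fold. -/
def memFold (q : ℕ) (l : List ℕ) : Bool := l.foldr (fun e acc => decide (e = q) || acc) false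

/-- Table lookup, written as a fold. -/
def lookupFold (k : ℕ × ℕ) (T : List ((ℕ × ℕ) × (ℕ × ℕ × Option Bool))) :
    Option (ℕ × ℕ × Option Bool) :=
  T.foldr (fun e acc => if k = e.1 then some e.2 else acc) none

theorem memFold_eq (q : ℕ) (l : List ℕ) : memFold q l = true ↔ q ∈ l := by
  induction l with
  | nil => simp [memFold]
  | cons a l ih =>
    simp only [memFold, List.foldr_cons, Bool.or_eq_true, decide_eq_true_eq, List.mem_cons] at ih ⊢
    rw [ih, eq_comm]

theorem lookupFold_eq (k : ℕ × ℕ) (T : List ((ℕ × ℕ) × (ℕ × ℕ × Option Bool))) :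
    lookupFold k T = T.lookup k := by
  induction T with
  | nil => rfl
  | cons a T ih =>
    obtain ⟨a1, a2⟩ := a
    simp only [lookupFold, List.foldr_cons, List.lookup_cons] at ih ⊢
    by_cases h : k = a1
    · simp [h]
    · simp [h, ih, beq_eq_false_iff_ne.2 h]

/-- The move after writing `a`. -/
def lMove (q : ℕ) (a : ℕ) (d : Option Bool) (L R : List ℕ) : LCfg :=
  if d = none then (q, L, a, R)
  else if d = some false then (q, L.tail, L.headI, a :: R)
  else (q, a :: L, R.headI, R.tail)

/-- One step on configurations given by lists. -/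
def lStep (M : Machine) (c : LCfg) : LCfg :=
  bif memFold c.1 M.2.1 then c
  else (lookupFold (c.1, c.2.2.1) M.2.2).elim c fun e => lMove e.1 e.2.1 e.2.2 c.2.1 c.2.2.2

theorem lStep_toConfig (M : Machine) (c : LCfg) :
    M.step c.toConfig = (lStep M c).toConfig := by
  obtain ⟨q, L, h, R⟩ := c
  unfold Machine.step lStep
  simp only [LCfg.toConfig]
  by_cases hq : q ∈ M.2.1
  · simp [hq, (memFold_eq q M.2.1).2 hq]
  · have : memFold q M.2.1 = false := by
      rw [← Bool.not_eq_true]; exact fun hh => hq ((memFold_eq q M.2.1).1 hh)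
    simp only [hq, if_false, this, lookupFold_eq, cond_false]
    split
    · next hl => rw [hl]; rfl
    · next q' a' hl => rw [hl]; rfl
    · next q' a' hl =>
      rw [hl]
      simp [lMove, Tape.write, Tape.move, ListBlank.head_mk, ListBlank.tail_mk, ListBlank.cons_mk]
    · next q' a' hl =>
      rw [hl]
      simp [lMove, Tape.write, Tape.move, ListBlank.head_mk, ListBlank.tail_mk, ListBlank.cons_mk]

/-- The configuration at the start, given by lists. -/
def lInit (p : Machine × List ℕ) : LCfg := (p.1.1, [], p.2.headI, p.2.tail)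

theorem lInit_toConfig (p : Machine × List ℕ) :
    (lInit p).toConfig = (p.1.1, Tape.mk₁ p.2) := by
  simp [lInit, LCfg.toConfig, Tape.mk₁, Tape.mk₂, Tape.mk', ListBlank.head_mk, ListBlank.tail_mk]

theorem lIter_toConfig (p : Machine × List ℕ) (n : ℕ) :
    p.1.step^[n] (p.1.1, Tape.mk₁ p.2) = ((lStep p.1)^[n] (lInit p)).toConfig := by
  induction n with
  | zero => simp [lInit_toConfig]
  | succ n ih => rw [Function.iterate_succ_apply', Function.iterate_succ_apply', ih, lStep_toConfig]

/-- Whether the machine has halted after `n` steps. -/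
def haltedAt (p : Machine × List ℕ) (n : ℕ) : Bool :=
  memFold ((lStep p.1)^[n] (lInit p)).1 p.1.2.1

theorem halts_iff (M : Machine) (w : List ℕ) :
    M.Halts w ↔ ∃ n, haltedAt (M, w) n = true := by
  refine exists_congr fun n => ?_
  have h := lIter_toConfig (M, w) n
  simp only [haltedAt, memFold_eq]
  rw [h]
  rfl

open Primrec in
theorem memFold_primrec : Primrec₂ memFold :=
  (list_foldr snd (Primrec.const false)
    ((Primrec.or.comp (Primrec.eq.decide.comp (fst.comp snd) (fst.comp fst))
      (snd.comp snd)).to₂)).to₂.of_eq fun _ _ => rfl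

open Primrec in
theorem lookupFold_primrec : Primrec₂ lookupFold :=
  (list_foldr snd (Primrec.const none)
    ((Primrec.ite (Primrec.eq.comp (fst.comp fst) (fst.comp (fst.comp snd)))
      (option_some.comp (snd.comp (fst.comp snd))) (snd.comp snd)).to₂)).to₂.of_eq fun _ _ => rfl

open Primrec in
theorem lStep_primrec : Primrec₂ lStep := by
  have hM : Primrec fun z : Machine × LCfg => z.1 := fst
  have hc : Primrec fun z : Machine × LCfg => z.2 := snd
  refine Primrec₂.of_eq (f := fun (M : Machine) (c : LCfg) => bif memFold c.1 M.2.1 then c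
    else (lookupFold (c.1, c.2.2.1) M.2.2).elim c fun e => lMove e.1 e.2.1 e.2.2 c.2.1 c.2.2.2)
    ?_ fun _ _ => rfl
  have hcond : Primrec fun z : Machine × LCfg => memFold z.2.1 z.1.2.1 :=
    memFold_primrec.comp (fst.comp hc) (fst.comp (snd.comp hM))
  have hlook : Primrec fun z : Machine × LCfg => lookupFold (z.2.1, z.2.2.2.1) z.1.2.2 :=
    lookupFold_primrec.comp ((fst.comp hc).pair (fst.comp (snd.comp (snd.comp hc))))
      (snd.comp (snd.comp hM))
  have hmove : Primrec fun z : (Machine × LCfg) × (ℕ × ℕ × Option Bool) =>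
      lMove z.2.1 z.2.2.1 z.2.2.2 z.1.2.2.1 z.1.2.2.2.2 := by
    have hq := (fst.comp snd : Primrec fun z : (Machine × LCfg) × (ℕ × ℕ × Option Bool) => z.2.1)
    have ha := (fst.comp (snd.comp snd) :
      Primrec fun z : (Machine × LCfg) × (ℕ × ℕ × Option Bool) => z.2.2.1)
    have hd := (snd.comp (snd.comp snd) :
      Primrec fun z : (Machine × LCfg) × (ℕ × ℕ × Option Bool) => z.2.2.2)
    have hL := (fst.comp (snd.comp (snd.comp fst)) :
      Primrec fun z : (Machine × LCfg) × (ℕ × ℕ × Option Bool) => z.1.2.2.1)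
    have hR := (snd.comp (snd.comp (snd.comp (snd.comp fst))) :
      Primrec fun z : (Machine × LCfg) × (ℕ × ℕ × Option Bool) => z.1.2.2.2.2)
    exact Primrec.ite (Primrec.eq.comp hd (Primrec.const none))
      (hq.pair (hL.pair (ha.pair hR)))
      (Primrec.ite (Primrec.eq.comp hd (Primrec.const (some false)))
        (hq.pair ((list_tail.comp hL).pair ((list_headI.comp hL).pair (list_cons.comp ha hR))))
        (hq.pair ((list_cons.comp ha hL).pair ((list_headI.comp hR).pair (list_tail.comp hR)))))
  have hmain : Primrec fun z : Machine × LCfg => (lookupFold (z.2.1, z.2.2.2.1) z.1.2.2).elim z.2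
      fun e => lMove e.1 e.2.1 e.2.2 z.2.2.1 z.2.2.2.2 :=
    (Primrec.option_casesOn hlook hc hmove.to₂).of_eq fun z => by
      cases lookupFold (z.2.1, z.2.2.2.1) z.1.2.2 <;> rfl
  exact (Primrec.cond hcond hc hmain).to₂

open Primrec in
theorem haltedAt_primrec : Primrec₂ haltedAt := by
  have hinit : Primrec lInit :=
    (fst.comp fst).pair ((Primrec.const []).pair
      ((list_headI.comp snd).pair (list_tail.comp snd)))
  have hM : Primrec fun z : ((Machine × List ℕ) × ℕ) × LCfg => z.1.1.1 :=
    fst.comp (fst.comp fst)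
  have hs : Primrec₂ fun (z : (Machine × List ℕ) × ℕ) (c : LCfg) => lStep z.1.1 c :=
    (lStep_primrec.comp hM snd).to₂
  have h0 : Primrec fun z : (Machine × List ℕ) × ℕ => lInit z.1 := hinit.comp fst
  have hn : Primrec fun z : (Machine × List ℕ) × ℕ => z.2 := snd
  have hit : Primrec fun z : (Machine × List ℕ) × ℕ => (lStep z.1.1)^[z.2] (lInit z.1) :=
    nat_iterate hn h0 hs
  have hq : Primrec fun z : (Machine × List ℕ) × ℕ => z.1.1.2.1 :=
    fst.comp (snd.comp (fst.comp fst))
  exact (memFold_primrec.comp (fst.comp hit) hq).to₂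

/-- Searching for a time at which a primitive recursive test succeeds. -/
theorem search_partrec {α : Type} [Primcodable α] {h : α → ℕ → Bool} (hh : Primrec₂ h) :
    ∃ f : ℕ →. ℕ, Partrec f ∧ ∀ p : α, (f (encode p)).Dom ↔ ∃ n, h p n = true := by
  set g : ℕ → ℕ → Bool := fun k n => ((decode (α := α) k).map fun p => h p n).getD false with hg
  have hgp : Primrec₂ g := by
    have h1 : Primrec fun z : ℕ × ℕ => decode (α := α) z.1 := Primrec.decode.comp Primrec.fst
    have h2 : Primrec₂ fun (z : ℕ × ℕ) (p : α) => h p z.2 :=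
      (hh.comp Primrec.snd (Primrec.snd.comp Primrec.fst)).to₂
    exact (Primrec.option_getD.comp (Primrec.option_map h1 h2) (Primrec.const false)).to₂
  refine ⟨fun k => Nat.rfind fun n => Part.some (g k n), Partrec.rfind hgp.to_comp.partrec₂,
    fun p => ?_⟩
  constructor
  · intro h'
    obtain ⟨n, hn⟩ := Part.dom_iff_mem.1 h'
    have := Nat.rfind_spec hn
    exact ⟨n, by simpa [hg, encodek] using this⟩
  · rintro ⟨n, hn⟩
    show (Nat.rfind fun n => Part.some (g (encode p) n)).Dom
    exact Nat.rfind_dom.2 ⟨n, by simpa [hg, encodek] using hn, fun {m} _ => trivial⟩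

/-- The halting problem as a partial recursive function of a number. -/
theorem halting_partrec : ∃ f : ℕ →. ℕ, Partrec f ∧
    ∀ p : Machine × List ℕ, (f (encode p)).Dom ↔ p.1.Halts p.2 := by
  obtain ⟨f, hf, hd⟩ := search_partrec haltedAt_primrec
  exact ⟨f, hf, fun p => (hd p).trans (halts_iff p.1 p.2).symm⟩

end Vale.Agent.P113
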