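import Vale.Agent.P113.Run

/-!
# The force compiler
-/

namespace Vale.Agent.P113

open Turing Set StateTransition Encodable
open scoped ContDiff

/-- `1 + B + ... + B ^ (k - 1)`. -/
def repunit (B : ℕ) : ℕ → ℕ
  | 0 => 0
  | k + 1 => B ^ k + repunit B k

theorem digVal_replicate {D : ℕ} (hD : 0 < D) (d : ℕ) : ∀ k,
    digVal D (List.replicate k d) = (d * repunit (2 * D) k : ℕ) / ((2 * D : ℕ) : ℚ) ^ k
  | 0 => by simp [digVal, repunit]
  | k + 1 => by
    have h : ((2 * D : ℕ) : ℚ) ≠ 0 := by
      have : 0 < 2 * D := by omega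
      exact_mod_cast this.ne'
    rw [show List.replicate (k + 1) d = d :: List.replicate k d from rfl]
    simp only [digVal, digVal_replicate hD d k, repunit]
    push_cast at h ⊢
    field_simp
    ring

/-- A code of `64` times the second coordinate of the start point. -/
def startCode (D d0 d1 n : ℕ) : RatCode :=
  (Int.ofNat (64 * (d0 * (2 * D) ^ (n + 1) + d1 * repunit (2 * D) (n + 1))), (2 * D) ^ (n + 2) - 1)

theorem startCode_val {D : ℕ} (hD : 0 < D) (d0 d1 n : ℕ) :
    (startCode D d0 d1 n).val =
      64 * ((digVal D (d0 :: List.replicate (n + 1) d1) : ℚ) : ℝ) := by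
  have h1 : 1 ≤ (2 * D) ^ (n + 2) := Nat.one_le_pow _ _ (by omega)
  have h2 : (((2 * D) ^ (n + 2) - 1 : ℕ) : ℝ) + 1 = ((2 * D : ℕ) : ℝ) ^ (n + 2) := by
    rw [← Nat.cast_add_one, Nat.sub_add_cancel h1]; push_cast; rfl
  simp only [startCode, RatCode.val, h2, digVal, digVal_replicate hD]
  have : (D : ℝ) ≠ 0 := by exact_mod_cast hD.ne'
  push_cast [Int.ofNat_eq_natCast]
  field_simp
  ring

theorem repunit_primrec (B : ℕ) : Primrec (repunit B) :=
  (Primrec.nat_rec₁ 0 (((Primrec.nat_add.comp
    ((Primrec₂.unpaired'.1 Nat.Primrec.pow).comp (Primrec.const B) Primrec.fst)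
    Primrec.snd)).to₂)).of_eq fun k => by
    induction k with
    | zero => rfl
    | succ k ih => simp [repunit, ← ih]

theorem intOfNat_primrec : Primrec (fun n : ℕ => Int.ofNat n) := by
  refine Primrec.encode_iff.1 ?_
  refine (Primrec.nat_mul.comp (Primrec.const 2) Primrec.id).of_eq fun n => ?_
  rfl

theorem startCode_primrec (D d0 d1 : ℕ) : Primrec (startCode D d0 d1) := by
  have hpow : Primrec₂ ((· ^ ·) : ℕ → ℕ → ℕ) := Primrec₂.unpaired'.1 Nat.Primrec.pow
  have h1 : Primrec fun n => (2 * D) ^ (n + 1) :=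
    hpow.comp (Primrec.const _) Primrec.succ
  have h2 : Primrec fun n => (2 * D) ^ (n + 2) - 1 :=
    Primrec.nat_sub.comp (hpow.comp (Primrec.const _) (Primrec.succ.comp Primrec.succ))
      (Primrec.const 1)
  exact (intOfNat_primrec.comp (Primrec.nat_mul.comp (Primrec.const 64)
    (Primrec.nat_add.comp (Primrec.nat_mul.comp (Primrec.const d0) h1)
      (Primrec.nat_mul.comp (Primrec.const d1)
        ((repunit_primrec _).comp Primrec.succ))))).pair h2

/-- A loader term with a given coefficient code. -/
def loadTermCode (c : RatCode) : TermCode := (c, 0, -1, [], [(false, loadBump 1)], [], [], [])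

theorem loadTermCode_val (c : RatCode) (ν t : ℝ) (x : Point) :
    termVal ν t x (loadTermCode c) = c.val * kappa⁻¹ * bumpVal (loadBump 1) t := by
  simp [loadTermCode, termVal, timeFactorVal, spaceFactorVal]

theorem loadTermCode_ok (c : RatCode) : termValid (loadTermCode c) ∧
    isPeriodicTerm (loadTermCode c) = false ∧
    ∀ ν t x, 1 ≤ t → termVal ν t x (loadTermCode c) = 0 := by
  refine ⟨⟨(loadTerm_valid 0).1, (loadTerm_valid 0).2.1, (loadTerm_valid 0).2.2⟩, rfl,
    fun ν t x h => ?_⟩
  rw [loadTermCode_val, loadBump_val, iteratedDeriv_rho_zero 1, mul_zero]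
  rw [abs_of_nonneg (by linarith)]
  linarith

/-- The force code: fixed periodic terms and three loader terms. -/
def forceCodeOf (F : ForceCode) (a b : RatCode) : ForceCode :=
  (F.1 ++ [loadTermCode a], F.2.1 ++ [loadTermCode b], F.2.2 ++ [loadTermCode (0, 0)])

theorem forceCodeOf_list (F : ForceCode) (a b : RatCode) (i : Fin 3) :
    componentList (forceCodeOf F a b) i
      = componentList F i ++ [loadTermCode ((![a, b, (0, 0)] : Fin 3 → RatCode) i)] := by
  fin_cases i <;> rfl

set_option synthInstance.maxSize 2000 in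
theorem forceCodeOf_primrec (F : ForceCode) (a : RatCode) :
    Primrec fun b => forceCodeOf F a b := by
  have hterm : Primrec fun b : RatCode => loadTermCode b :=
    Primrec.id.pair (Primrec.const _)
  exact (Primrec.const _).pair
    ((Primrec.list_append.comp (Primrec.const _)
      (Primrec.list_cons.comp hterm (Primrec.const []))).pair (Primrec.const _))

theorem exists_compiler : ∃ (a lo hi : Fin 3 → ℚ), (∀ i, lo i < hi i) ∧
    ∃ (T0 : ℝ) (compile : Machine × List ℕ → ForceCode), IsForceCompiler T0 compile ∧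
      ∀ ν : ℝ, 0 < ν → ∀ M w, Detects a lo hi compile ν M w := by
  classical
  obtain ⟨Q, G, iQ, iG, iInh, δ, q0, c0, c1, huniv⟩ := exists_universal
  obtain ⟨S, hS⟩ := exists_machineShears δ
  have hfol : Follows δ S := hS
  obtain ⟨F, hF, hsol⟩ := S.exists_force
  set D := numDigits Q G with hDdef
  have hD : 0 < D := (special_lt Q G).2.2.2
  set x0 : ℚ := xVal (cRun q0 : Ctrl Q G) [sepDigit G] with hx0
  refine ⟨fun _ => 0, ![1 / 2, -1, -1], ![3 / 4, 1, 1], ?_, 1,
    fun z => forceCodeOf F (ratCode (x0 * 64)) (startCode D (digit c0) (digit c1) (encode z)),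
    ⟨?_, ?_, ?_⟩, ?_⟩
  · intro i; fin_cases i <;> simp; norm_num
  · exact ((forceCodeOf_primrec F _).comp
      ((startCode_primrec _ _ _).comp Primrec.encode)).to_comp
  · intro M w i τ hτ
    rw [forceCodeOf_list, List.mem_append, List.mem_singleton] at hτ
    rcases hτ with hτ | rfl
    · exact ⟨(hF i τ hτ).1, fun h => absurd ((hF i τ hτ).2.symm.trans h) (by simp)⟩
    · exact ⟨(loadTermCode_ok _).1, fun _ => (loadTermCode_ok _).2.2⟩
  · intro M w w'
    simp only [periodicPart, forceCodeOf, List.filter_append]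
    simp [(loadTermCode_ok _).2.1]
  intro ν hν M w
  set n := encode (M, w) with hn
  set y0 : ℚ := digVal D (digit c0 :: List.replicate (n + 1) (digit c1)) with hy0
  set P : Fin 3 → ℚ := ![x0, y0, 0] with hP
  set force := forceVal (forceCodeOf F (ratCode (x0 * 64))
    (startCode D (digit c0) (digit c1) n)) ν with hforce
  have hcoef : ∀ i, ((![ratCode (x0 * 64), startCode D (digit c0) (digit c1) n, (0, 0)] :
      Fin 3 → RatCode) i).val = (P i : ℝ) * 64 := by
    intro i
    fin_cases i
    · simp [hP, ratCode_val]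
    · show (startCode D (digit c0) (digit c1) n).val = ((P 1 : ℚ) : ℝ) * 64
      rw [startCode_val hD, hP, Matrix.cons_val_one, Matrix.cons_val_zero, hy0]
      ring
    · simp [hP, RatCode.val]
  have hval : force = fun t x i =>
      ((componentList F i).map (termVal ν t x)).sum + loadForce P t i := by
    funext t x i
    simp only [hforce, forceVal, forceCodeOf_list, List.map_append, List.sum_append,
      List.map_cons, List.map_nil, List.sum_cons, List.sum_nil, add_zero, loadTermCode_val,
      loadForce]
    rw [hcoef i]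
  set pts : ℕ → Point := fun m => S.stepPoint^[m] (fun i => (P i : ℝ)) with hpts
  have hstep : ∀ m, pts (m + 1) = S.stepPoint (pts m) := fun m =>
    Function.iterate_succ_apply' _ _ _
  have hstart : (fun i => (P i : ℝ)) = tmPoint q0 [] c0 (List.replicate (n + 1) c1) [] := by
    funext i
    fin_cases i <;> simp [hP, hx0, hy0, tmPoint, cfgPoint, Rules.flat, hDdef]
  have hcfg : tmCfg q0 [] c0 (List.replicate (n + 1) c1)
      = (q0, Tape.mk₁ (c0 :: List.replicate (n + 1) c1)) := by
    simp [tmCfg, Tape.mk₁, Tape.mk₂, Tape.mk', ListBlank.head_mk, ListBlank.tail_mk]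
  have hdom : (StateTransition.eval (tmStep δ)
      (tmCfg q0 [] c0 (List.replicate (n + 1) c1))).Dom ↔ M.Halts w := by
    rw [hcfg]; exact huniv (M, w)
  have hX := S.traj_isTrajectory P pts hstep rfl
  have ha : (fun i => ((((fun _ => 0) : Fin 3 → ℚ) i : ℚ) : ℝ)) = (0 : Point) := by
    funext i; simp
  refine ⟨S.field P, fun _ _ => 0, ?_, S.field_smooth P, contDiff_const, ?_, ?_, S.traj pts, ?_, ?_, ?_⟩
  · show ContDiff ℝ ∞ (Function.uncurry force)
    rw [hval]
    refine contDiff_pi.2 fun i => ?_
    refine (termList_contDiff (componentList F i) (fun τ hτ => (hF i τ hτ).1) ν).add ?_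
    exact (contDiff_const.mul (bumpVal_contDiff _)).comp contDiff_fst
  · intro T hT
    show IsClassicalSolution ν T force _ _
    rw [hval]
    exact hsol P ν T hT
  · intro T hT v q hv
    refine classical_unique hν.le hT (f := force) ?_ hv
    rw [hval]
    exact hsol P ν T hT
  · rw [ha]; exact hX
  · intro Y hY t ht
    rw [ha] at hY
    exact trajectory_unique (S.field_smooth P) hX hY t ht
  · rw [← hdom]
    constructor
    · rintro ⟨t, ht, hmem⟩
      by_contra hnd
      have hlow : ∀ m k, S.mid (pts m) k 0 ∈ Icc (0 : ℝ) (1 / 4) := by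
        intro m
        have := low_of_not_dom hfol m q0 [] c0 (List.replicate (n + 1) c1) []
          (List.forall_mem_nil _) hnd
        rw [← hstart] at this
        exact this
      have hx : S.traj pts t 0 ∈ Icc (0 : ℝ) (1 / 4) := by
        rcases S.traj_segment pts hstep ht with ⟨s, hs, e⟩ | ⟨m, k, s, hs, e⟩
        · have h0 : pts 0 0 ∈ Icc (0 : ℝ) (1 / 4) := hlow 0 0
          rw [e, Pi.smul_apply, smul_eq_mul]
          constructor <;> nlinarith [hs.1, hs.2, h0.1, h0.2]
        · rw [e]
          exact (convex_Icc (0 : ℝ) (1 / 4)) (hlow m k) (hlow m (k + 1)) (by linarith [hs.2])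
            hs.1 (by ring)
      obtain ⟨k, hk⟩ := hmem
      obtain ⟨h1, h2⟩ := hk 0
      simp at h1 h2
      have e1 : (0 : ℝ) < (k 0 : ℝ) := by linarith [hx.2]
      have e2 : ((k 0 : ℤ) : ℝ) < 1 := by linarith [hx.1]
      have e3 : 0 < k 0 := by exact_mod_cast e1
      have e4 : k 0 < 1 := by exact_mod_cast e2
      omega
    · intro hd
      obtain ⟨m, hm⟩ := halts_of_dom hfol hd q0 [] c0 (List.replicate (n + 1) c1) []
        (List.forall_mem_nil _) rfl
      rw [← hstart] at hm
      have hm1 : 1 ≤ m := by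
        by_contra h0
        have hm0 : m = 0 := by omega
        subst hm0
        have hlo := (xVal_low (c := (cRun q0 : Ctrl Q G)) (by simp) (l := [sepDigit G])
          (DigitsOK.cons (special_lt Q G).1 (List.forall_mem_nil _))).2
        simp [hP, hx0] at hm
        linarith [hm.1]
      refine ⟨m, Nat.cast_nonneg m, ![0, -⌊S.traj pts m 1⌋, -⌊S.traj pts m 2⌋], fun i => ?_⟩
      fin_cases i
      · simp only [S.traj_at_nat pts hstep m hm1]
        simpa [hpts] using hm
      · simp
        have h1 := Int.floor_le (S.traj pts m 1)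
        have h2 := Int.lt_floor_add_one (S.traj pts m 1)
        constructor <;> linarith
      · simp
        have h1 := Int.floor_le (S.traj pts m 2)
        have h2 := Int.lt_floor_add_one (S.traj pts m 2)
        constructor <;> linarith

end Vale.Agent.P113
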