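import Vale.Agent.P113.Encoding

/-!
# The shear flow follows the machine
-/

namespace Vale.Agent.P113

open Turing Set StateTransition

section

set_option linter.unusedSectionVars false

variable {Q G : Type} [Fintype Q] [Fintype G] [Inhabited G]
  {δ : Q → G → Option (Q × TM0.Stmt G)}

/-- The shears send configurations to configurations as the rules prescribe. -/
def Follows (δ : Q → G → Option (Q × TM0.Stmt G)) (S : Shears) : Prop :=
  ∀ (i : RuleId Q G) (l r : List ℕ),
    DigitsOK (numDigits Q G) l → DigitsOK (numDigits Q G) r →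
    S.stepPoint (cfgPoint (stackRule δ i).s ((stackRule δ i).l ++ l) ((stackRule δ i).r ++ r))
      = cfgPoint (stackRule δ i).s' ((stackRule δ i).l' ++ l) ((stackRule δ i).r' ++ r) ∧
    ∀ k : ℕ,
      S.mid (cfgPoint (stackRule δ i).s ((stackRule δ i).l ++ l) ((stackRule δ i).r ++ r)) k 0
          = (xVal (stackRule δ i).s ((stackRule δ i).l ++ l) : ℝ) ∨
      S.mid (cfgPoint (stackRule δ i).s ((stackRule δ i).l ++ l) ((stackRule δ i).r ++ r)) k 0
          ∈ Icc (1 / 16 : ℝ) (3 / 16) ∨
      S.mid (cfgPoint (stackRule δ i).s ((stackRule δ i).l ++ l) ((stackRule δ i).r ++ r)) k 0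
          = (xVal (stackRule δ i).s' ((stackRule δ i).l' ++ l) : ℝ)

/-- All intermediate points of the period from `v` have first coordinate in `[0, 1/4]`. -/
def Low (S : Shears) (v : Point) : Prop := ∀ k, S.mid v k 0 ∈ Icc (0 : ℝ) (1 / 4)

/-- `v'` is reached from `v` through low periods. -/
def Seg (S : Shears) (v v' : Point) : Prop :=
  ∃ m, S.stepPoint^[m] v = v' ∧ ∀ k < m, Low S (S.stepPoint^[k] v)

/-- `v'` is reached from `v` through at least one low period. -/
def Seg1 (S : Shears) (v v' : Point) : Prop :=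
  ∃ v'', S.stepPoint v = v'' ∧ Low S v ∧ Seg S v'' v'

theorem Seg.refl (S : Shears) (v : Point) : Seg S v v := ⟨0, rfl, fun _ h => absurd h (Nat.not_lt_zero _)⟩

theorem Seg.trans {S : Shears} {a b c : Point} (h : Seg S a b) (h' : Seg S b c) : Seg S a c := by
  obtain ⟨m, rfl, hm⟩ := h
  obtain ⟨n, rfl, hn⟩ := h'
  refine ⟨n + m, Function.iterate_add_apply _ _ _ _, fun k hk => ?_⟩
  rcases lt_or_ge k m with h1 | h1
  · exact hm k h1
  · obtain ⟨j, rfl⟩ := Nat.exists_eq_add_of_le h1
    rw [Nat.add_comm m j, Function.iterate_add_apply]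
    exact hn j (by omega)

theorem Seg.head {S : Shears} {a c : Point} (hl : Low S a) (h : Seg S (S.stepPoint a) c) :
    Seg S a c := by
  refine Seg.trans ⟨1, rfl, fun k hk => ?_⟩ h
  obtain rfl : k = 0 := by omega
  exact hl

theorem xVal_low {c : Ctrl Q G} (hc : c ≠ cHalt) {l : List ℕ} (hl : DigitsOK (numDigits Q G) l) :
    (xVal c l : ℝ) ∈ Icc (0 : ℝ) (1 / 4) := by
  obtain ⟨b1, b2⟩ := block_run hc
  have h1 := digVal_nonneg (numDigits Q G) l
  have h2 := digVal_le (special_lt Q G).2.2.2 hl
  have hw := width_pos Q G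
  have h : 0 ≤ xVal c l ∧ xVal c l ≤ 1 / 4 := by
    unfold xVal; constructor <;> nlinarith
  have h' := (Rat.cast_le (K := ℝ)).2 h.2
  push_cast at h'
  exact ⟨by exact_mod_cast h.1, h'⟩

theorem xVal_halt {l : List ℕ} (hl : DigitsOK (numDigits Q G) l) :
    (xVal (cHalt : Ctrl Q G) l : ℝ) ∈ Ioo (1 / 2 : ℝ) (3 / 4) := by
  have h1 := digVal_nonneg (numDigits Q G) l
  have h2 := digVal_le (special_lt Q G).2.2.2 hl
  have hw := width_pos Q G
  have hw' := width_le Q G
  have h : 5 / 8 ≤ xVal (cHalt : Ctrl Q G) l ∧ xVal (cHalt : Ctrl Q G) l ≤ 11 / 16 := by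
    unfold xVal
    rw [show block (cHalt : Ctrl Q G) = 5 / 8 by simp [block]]
    constructor <;> nlinarith
  have ha := (Rat.cast_le (K := ℝ)).2 h.1
  have hb := (Rat.cast_le (K := ℝ)).2 h.2
  push_cast at ha hb
  exact ⟨by linarith, by linarith⟩

/-- One application of a rule between running states. -/
theorem Follows.apply {S : Shears} (hS : Follows δ S) (i : RuleId Q G) {l r : List ℕ}
    (hl : DigitsOK (numDigits Q G) l) (hr : DigitsOK (numDigits Q G) r)
    (h : (stackRule δ i).s ≠ cHalt) (h' : (stackRule δ i).s' ≠ cHalt) {c c' : Point}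
    (hc : c = cfgPoint (stackRule δ i).s ((stackRule δ i).l ++ l) ((stackRule δ i).r ++ r))
    (hc' : c' = cfgPoint (stackRule δ i).s' ((stackRule δ i).l' ++ l) ((stackRule δ i).r' ++ r)) :
    S.stepPoint c = c' ∧ Low S c := by
  obtain ⟨o1, o2, o3, o4⟩ := stackRule_ok δ i
  obtain ⟨h1, h2⟩ := hS i l r hl hr
  subst hc hc'
  refine ⟨h1, fun k => ?_⟩
  rcases h2 k with e | e | e
  · rw [e]; exact xVal_low h (o1.append hl)
  · exact ⟨by linarith [e.1], by linarith [e.2]⟩
  · rw [e]; exact xVal_low h' (o3.append hl)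

theorem digits_map (l : List G) : DigitsOK (numDigits Q G) (l.map digit) := by
  intro d hd
  obtain ⟨g, -, rfl⟩ := List.mem_map.1 hd
  exact digit_lt_num g

theorem goShuttle {S : Shears} (hS : Follows δ S) (q : Q) (e : Entry Q G) :
    ∀ (L : List G) (H R : List ℕ), DigitsOK (numDigits Q G) H → DigitsOK (numDigits Q G) R →
      Seg S (cfgPoint (cGo q e) (L.map digit ++ sepDigit G :: H) R)
        (cfgPoint (cBack q : Ctrl Q G) (sepDigit G :: entryDigit e :: H) (L.reverse.map digit ++ R))
  | [], H, R, hH, hR => by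
    obtain ⟨e1, e2⟩ := hS.apply (Sum.inr (Sum.inl ((q, e), none))) hH hR
      (c := cfgPoint (cGo q e) (sepDigit G :: H) R)
      (c' := cfgPoint (cBack q : Ctrl Q G) (sepDigit G :: entryDigit e :: H) R)
      (by simp [stackRule]) (by simp [stackRule]) rfl rfl
    exact Seg.head e2 (e1.symm ▸ Seg.refl S _)
  | g :: L, H, R, hH, hR => by
    have hsep := (special_lt Q G).1
    obtain ⟨e1, e2⟩ := hS.apply (Sum.inr (Sum.inl ((q, e), some g)))
      ((digits_map L).append (hH.cons hsep)) hR
      (c := cfgPoint (cGo q e) ((g :: L).map digit ++ sepDigit G :: H) R)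
      (c' := cfgPoint (cGo q e) (L.map digit ++ sepDigit G :: H) (digit g :: R))
      (by simp [stackRule]) (by simp [stackRule]) rfl rfl
    refine Seg.head e2 ?_
    rw [e1]
    have := goShuttle hS q e L H (digit g :: R) hH (hR.cons (digit_lt_num g))
    simpa using this

theorem backShuttle {S : Shears} (hS : Follows δ S) (q : Q) :
    ∀ (K : List G) (X R : List ℕ), DigitsOK (numDigits Q G) X → DigitsOK (numDigits Q G) R →
      Seg S (cfgPoint (cBack q : Ctrl Q G) X (K.map digit ++ markDigit G :: R))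
        (cfgPoint (cRun q : Ctrl Q G) (K.reverse.map digit ++ X) R)
  | [], X, R, hX, hR => by
    obtain ⟨e1, e2⟩ := hS.apply (Sum.inr (Sum.inr (Sum.inl (q, none)))) hX hR
      (c := cfgPoint (cBack q : Ctrl Q G) X (markDigit G :: R))
      (c' := cfgPoint (cRun q : Ctrl Q G) X R)
      (by simp [stackRule]) (by simp [stackRule]) rfl rfl
    exact Seg.head e2 (e1.symm ▸ Seg.refl S _)
  | g :: K, X, R, hX, hR => by
    have hmark := (special_lt Q G).2.1
    obtain ⟨e1, e2⟩ := hS.apply (Sum.inr (Sum.inr (Sum.inl (q, some g)))) hX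
      ((digits_map K).append (hR.cons hmark))
      (c := cfgPoint (cBack q : Ctrl Q G) X ((g :: K).map digit ++ markDigit G :: R))
      (c' := cfgPoint (cBack q : Ctrl Q G) (digit g :: X) (K.map digit ++ markDigit G :: R))
      (by simp [stackRule]) (by simp [stackRule]) rfl rfl
    refine Seg.head e2 ?_
    rw [e1]
    have := backShuttle hS q K (digit g :: X) R (hX.cons (digit_lt_num g)) hR
    simpa using this

/-- The point of a configuration of the machine with a given history. -/
noncomputable def tmPoint (q : Q) (L : List G) (h : G) (R : List G) (H : List ℕ) : Point :=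
  cfgPoint (cRun q : Ctrl Q G) (L.map digit ++ sepDigit G :: H) ((h :: R).map digit)

/-- The machine configuration given by lists. -/
def tmCfg (q : Q) (L : List G) (h : G) (R : List G) : Q × Tape G :=
  (q, ⟨h, ListBlank.mk L, ListBlank.mk R⟩)

theorem digit_default : digit (default : G) = 0 := by simp [digit]

theorem tm_step {S : Shears} (hS : Follows δ S) (q : Q) (L : List G) (h : G) (R : List G)
    (H : List ℕ) (hH : DigitsOK (numDigits Q G) H) :
    (δ q h = none ∧ (S.stepPoint (tmPoint q L h R H)) 0 ∈ Ioo (1 / 2 : ℝ) (3 / 4)) ∨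
    ∃ q' L' h' R' H', DigitsOK (numDigits Q G) H' ∧
      tmStep δ (tmCfg q L h R) = some (tmCfg q' L' h' R') ∧
      Seg1 S (tmPoint q L h R H) (tmPoint q' L' h' R' H') := by
  obtain ⟨hsep, hmark, -, hD⟩ := special_lt Q G
  set e : Entry Q G := (q, h, L.head?) with he
  set rest : List ℕ := (L.map digit ++ sepDigit G :: H).tail with hrest
  have hrestok : DigitsOK (numDigits Q G) rest := fun d hd =>
    ((digits_map L).append (hH.cons hsep)) d (List.mem_of_mem_tail hd)
  have hR : DigitsOK (numDigits Q G) (R.map digit) := digits_map R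
  have htop : L.map digit ++ sepDigit G :: H = [leftTop e.2.2] ++ rest := by
    cases L <;> simp [he, hrest, leftTop]
  have finish : ∀ (q' : Q) (L' : List G) (h' : G) (R' : List G),
      S.stepPoint (tmPoint q L h R H) = cfgPoint (cGo q' e) (L'.map digit ++ sepDigit G :: H)
          (markDigit G :: (h' :: R').map digit) →
      Low S (tmPoint q L h R H) →
      tmStep δ (tmCfg q L h R) = some (tmCfg q' L' h' R') →
      ∃ q' L' h' R' H', DigitsOK (numDigits Q G) H' ∧
        tmStep δ (tmCfg q L h R) = some (tmCfg q' L' h' R') ∧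
        Seg1 S (tmPoint q L h R H) (tmPoint q' L' h' R' H') := by
    intro q' L' h' R' e1 e2 e3
    refine ⟨q', L', h', R', entryDigit e :: H, hH.cons (entryDigit_lt e), e3, _, e1, e2, ?_⟩
    have hR' : DigitsOK (numDigits Q G) ((h' :: R').map digit) := digits_map _
    refine (goShuttle hS q' e L' H _ hH (hR'.cons hmark)).trans ?_
    have := backShuttle hS q' L'.reverse (sepDigit G :: entryDigit e :: H) ((h' :: R').map digit)
      ((hH.cons (entryDigit_lt e)).cons hsep) hR'
    simpa [tmPoint] using this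
  rcases hd : δ q h with _ | ⟨q', s⟩
  · left
    refine ⟨rfl, ?_⟩
    obtain ⟨h1, -⟩ := hS (Sum.inl e) rest (R.map digit) hrestok hR
    have hsrc : tmPoint q L h R H = cfgPoint (stackRule δ (Sum.inl e)).s
        ((stackRule δ (Sum.inl e)).l ++ rest) ((stackRule δ (Sum.inl e)).r ++ R.map digit) := by
      simp only [stackRule, he, hd]
      rw [tmPoint, htop]
      simp [he]
    rw [hsrc, h1]
    simp only [stackRule, he, hd]
    show (xVal (cHalt : Ctrl Q G) _ : ℝ) ∈ _
    refine xVal_halt (DigitsOK.append ?_ hrestok)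
    exact (DigitsOK.cons (leftTop_lt _) (List.forall_mem_nil _)).cons (entryDigit_lt _)
  · right
    have hrule : stackRule δ (Sum.inl e) = ⟨cRun q, [leftTop e.2.2], [digit h], cGo q' e,
        (stepTarget e s).1, (stepTarget e s).2⟩ := by
      simp only [stackRule, he, hd]
    obtain ⟨e1, e2⟩ := hS.apply (Sum.inl e) hrestok hR (c := tmPoint q L h R H)
      (c' := cfgPoint (cGo q' e) ((stepTarget e s).1 ++ rest) ((stepTarget e s).2 ++ R.map digit))
      (by rw [hrule]; simp) (by rw [hrule]; simp) (by rw [hrule, tmPoint, htop]; rfl)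
      (by rw [hrule])
    rcases s with ⟨_ | _⟩ | a
    · rcases L with _ | ⟨g, L⟩
      · refine finish q' [] default (h :: R) (e1.trans ?_) e2 ?_
        · simp [stepTarget, he, hrest, digit_default]
        · simp [tmStep, tmCfg, hd, Tape.move, ListBlank.head_mk, ListBlank.tail_mk,
            ListBlank.cons_mk]
      · refine finish q' L g (h :: R) (e1.trans ?_) e2 ?_
        · simp [stepTarget, he, hrest]
        · simp [tmStep, tmCfg, hd, Tape.move, ListBlank.head_mk, ListBlank.tail_mk,
            ListBlank.cons_mk]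
    · refine finish q' (h :: L) R.headI R.tail (e1.trans ?_) e2 ?_
      · rw [show (h :: L).map digit ++ sepDigit G :: H = digit h :: ([leftTop e.2.2] ++ rest) by
          rw [← htop]; rfl]
        cases R with
        | nil =>
          simp only [stepTarget, he, List.map_nil, List.headI_nil, List.tail_nil, List.map_cons,
            digit_default]
          simp [cfgPoint, digVal]
        | cons r R => simp [stepTarget, he]
      · simp [tmStep, tmCfg, hd, Tape.move, ListBlank.head_mk, ListBlank.tail_mk,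
          ListBlank.cons_mk]
    · refine finish q' L a R (e1.trans ?_) e2 ?_
      · rw [htop]; simp [stepTarget, he]
      · simp [tmStep, tmCfg, hd, Tape.write]

theorem halts_of_dom {S : Shears} (hS : Follows δ S) {c : Q × Tape G}
    (h : (StateTransition.eval (tmStep δ) c).Dom) :
    ∀ q L hd R H, DigitsOK (numDigits Q G) H → tmCfg q L hd R = c →
      ∃ n, (S.stepPoint^[n] (tmPoint q L hd R H)) 0 ∈ Ioo (1 / 2 : ℝ) (3 / 4) := by
  obtain ⟨b, hb⟩ := Part.dom_iff_mem.1 h
  obtain ⟨hr, hn⟩ := mem_eval.1 hb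
  clear h hb
  induction hr using Relation.ReflTransGen.head_induction_on with
  | refl =>
    intro q L hd R H hH hc
    rcases tm_step hS q L hd R H hH with ⟨-, h1⟩ | ⟨q', L', h', R', H', -, h2, -⟩
    · exact ⟨1, h1⟩
    · rw [hc, hn] at h2; exact absurd h2 (by simp)
  | @head a a' hac _ ih =>
    intro q L hd R H hH hc
    rcases tm_step hS q L hd R H hH with ⟨h0, -⟩ | ⟨q', L', h', R', H', hH', h2, v, hv, -, m, hm, -⟩
    · subst hc
      rw [Option.mem_def] at hac
      simp [tmStep, tmCfg, h0] at hac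
    · rw [hc, Option.mem_def.1 hac, Option.some.injEq] at h2
      obtain ⟨n, hn'⟩ := ih q' L' h' R' H' hH' h2.symm
      refine ⟨n + (m + 1), ?_⟩
      rw [Function.iterate_add_apply, Function.iterate_succ_apply, hv, hm]
      exact hn'

theorem low_of_not_dom {S : Shears} (hS : Follows δ S) : ∀ (n : ℕ) q L hd R H,
    DigitsOK (numDigits Q G) H → ¬ (StateTransition.eval (tmStep δ) (tmCfg q L hd R)).Dom →
    Low S (S.stepPoint^[n] (tmPoint q L hd R H)) := by
  intro n
  induction n using Nat.strong_induction_on with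
  | _ n ih =>
    intro q L hd R H hH hnd
    rcases tm_step hS q L hd R H hH with ⟨h0, -⟩ | ⟨q', L', h', R', H', hH', h2, v, hv, hl, m, hm, hlow⟩
    · refine absurd (Part.dom_iff_mem.2 ⟨tmCfg q L hd R, mem_eval.2 ⟨Relation.ReflTransGen.refl, ?_⟩⟩) hnd
      simp [tmStep, tmCfg, h0]
    · rcases Nat.eq_zero_or_pos n with rfl | hn
      · exact hl
      obtain ⟨j, rfl⟩ : ∃ j, n = j + 1 := ⟨n - 1, by omega⟩
      rw [Function.iterate_succ_apply, hv]
      rcases lt_or_ge j m with h1 | h1
      · exact hlow j h1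
      · obtain ⟨i, rfl⟩ := Nat.exists_eq_add_of_le h1
        rw [Nat.add_comm m i, Function.iterate_add_apply, hm]
        refine ih i (by omega) q' L' h' R' H' hH' fun hdom => hnd ?_
        rw [reaches_eval (Relation.ReflTransGen.single (Option.mem_def.2 h2))]
        exact hdom

end

end Vale.Agent.P113
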