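import Vale.Agent.P113.Halting

/-!
# A universal Post-Turing machine with finitely many states
-/

namespace Vale.Agent.P113

open Turing Encodable StateTransition

/-- One step of a finite Post-Turing machine. -/
def tmStep {Q G : Type} [Inhabited G] (δ : Q → G → Option (Q × TM0.Stmt G)) :
    Q × Tape G → Option (Q × Tape G) :=
  fun c => (δ c.1 c.2.head).map fun r => (r.1, match r.2 with
    | .move d => c.2.move d
    | .write a => c.2.write a)

/-- The number whose binary digits are `n + 1` ones. -/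
def onesNum : ℕ → PosNum
  | 0 => PosNum.one
  | n + 1 => PosNum.bit1 (onesNum n)

theorem onesNum_val (n : ℕ) : ((onesNum n : PosNum) : ℕ) + 1 = 2 ^ (n + 1) := by
  induction n with
  | zero => rfl
  | succ n ih =>
    show ((PosNum.bit1 (onesNum n) : PosNum) : ℕ) + 1 = _
    rw [PosNum.cast_bit1, pow_succ 2 (n + 1), ← ih]
    ring

theorem trNat_ones (n : ℕ) :
    PartrecToTM2.trNat (2 ^ (n + 1) - 1) = List.replicate (n + 1) PartrecToTM2.Γ'.bit1 := by
  have h : 2 ^ (n + 1) - 1 = ((Num.pos (onesNum n) : Num) : ℕ) := by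
    have := onesNum_val n
    show _ = ((onesNum n : PosNum) : ℕ)
    omega
  rw [PartrecToTM2.trNat, h, Num.of_to_nat]
  show PartrecToTM2.trPosNum (onesNum n) = _
  clear h
  induction n with
  | zero => rfl
  | succ n ih =>
    show PartrecToTM2.Γ'.bit1 :: PartrecToTM2.trPosNum (onesNum n) = _
    rw [ih]; rfl

theorem exists_code_halting : ∃ c : ToPartrec.Code, ∀ p : Machine × List ℕ,
    (c.eval [2 ^ (encode p + 1) - 1]).Dom ↔ p.1.Halts p.2 := by
  obtain ⟨f, hf, hd⟩ := halting_partrec
  set g : ℕ →. ℕ := fun m => (Nat.rfind fun n => Part.some (decide (2 ^ (n + 1) - 1 = m))).bind f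
    with hg
  have hgp : Partrec g := by
    refine (Partrec.rfind ?_).bind (hf.comp Computable.snd).to₂
    have hpow : Primrec₂ ((· ^ ·) : ℕ → ℕ → ℕ) :=
      Primrec₂.unpaired'.1 Nat.Primrec.pow
    have hd : Primrec₂ fun (m n : ℕ) => decide (2 ^ (n + 1) - 1 = m) :=
      (Primrec.eq.decide.comp (Primrec.nat_sub.comp
        (hpow.comp (Primrec.const 2) (Primrec.succ.comp Primrec.snd)) (Primrec.const 1))
        Primrec.fst).to₂
    exact hd.to_comp.partrec₂
  obtain ⟨c, hc⟩ := ToPartrec.Code.exists_code (Nat.Partrec'.part_iff₁.2 hgp)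
  refine ⟨c, fun p => ?_⟩
  have := hc ⟨[2 ^ (encode p + 1) - 1], rfl⟩
  simp only at this
  rw [this, ← hd p]
  have hfind : (Nat.rfind fun n => Part.some (decide (2 ^ (n + 1) - 1 = 2 ^ (encode p + 1) - 1)))
      = Part.some (encode p) := by
    refine Part.eq_some_iff.2 (Nat.mem_rfind.2 ⟨by simp, fun {m} hm => ?_⟩)
    have h1 : 2 ^ (m + 1) < 2 ^ (encode p + 1) := Nat.pow_lt_pow_right (by norm_num) (by omega)
    have h2 : 1 ≤ 2 ^ (m + 1) := Nat.one_le_two_pow
    simp only [Part.mem_some_iff, false_eq_decide_iff]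
    omega
  simp only [hg, List.Vector.head]
  rw [hfind]
  erw [Part.bind_some]
  rfl

/-- The tape alphabet of the universal machine. -/
abbrev UG : Type := TM2to1.Γ' PartrecToTM2.K' fun _ => PartrecToTM2.Γ'

open Classical in
theorem exists_universal : ∃ (Q G : Type) (_ : Fintype Q) (_ : Fintype G) (_ : Inhabited G)
    (δ : Q → G → Option (Q × TM0.Stmt G)) (q0 : Q) (c0 c1 : G),
    ∀ p : Machine × List ℕ,
      ((StateTransition.eval (tmStep δ) (q0, Tape.mk₁ (c0 :: List.replicate (encode p + 1) c1))).Dom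
        ↔ p.1.Halts p.2) := by
  obtain ⟨c, hc⟩ := exists_code_halting
  let _ : Inhabited PartrecToTM2.Λ' := ⟨PartrecToTM2.trNormal c PartrecToTM2.Cont'.halt⟩
  set S2 := PartrecToTM2.codeSupp c PartrecToTM2.Cont'.halt
  have h2 : @TM2.Supports _ _ _ _ _ PartrecToTM2.tr S2 := PartrecToTM2.tr_supports c _
  set M1 := TM2to1.tr PartrecToTM2.tr with hM1
  have h1 := TM2to1.tr_supports PartrecToTM2.tr h2
  have h0 := TM1to0.tr_supports M1 h1
  set S0 := TM1to0.trStmts M1 (TM2to1.trSupp PartrecToTM2.tr S2)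
  set δ0 := TM1to0.tr M1
  have hclosed : ∀ q a r, r ∈ δ0 q a → q ∈ S0 → r.1 ∈ S0 := fun q a r hr hq => h0.2 hr hq
  let Q : Type := {q // q ∈ S0}
  let δ : Q → UG → Option (Q × TM0.Stmt UG) := fun q a =>
    (δ0 q.1 a).pmap (fun r hr => (⟨r.1, hclosed q.1 a r hr q.2⟩, r.2))
      fun r hr => hr
  let q0 : Q := ⟨default, h0.1⟩
  let sym : Option PartrecToTM2.Γ' → PartrecToTM2.K' → Option PartrecToTM2.Γ' :=
    fun o => Function.update (fun _ => none) PartrecToTM2.K'.main o
  have hK : Fintype PartrecToTM2.K' :=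
    ⟨{.main, .rev, .aux, .stack}, fun k => by cases k <;> simp⟩
  have hΓ : Fintype PartrecToTM2.Γ' :=
    ⟨{.consₗ, .cons, .bit0, .bit1}, fun k => by cases k <;> simp⟩
  refine ⟨Q, UG, inferInstance, inferInstance, inferInstance, δ, q0,
    (true, sym (some PartrecToTM2.Γ'.cons)), (false, sym (some PartrecToTM2.Γ'.bit1)), fun p => ?_⟩
  rw [← hc p]
  set m := 2 ^ (encode p + 1) - 1 with hm
  set n := encode p
  have hinput : TM2to1.trInit PartrecToTM2.K'.main (PartrecToTM2.trList [m])
      = ((true, sym (some PartrecToTM2.Γ'.cons)) ::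
          List.replicate (n + 1) (false, sym (some PartrecToTM2.Γ'.bit1)) : List UG) := by
    have hl : PartrecToTM2.trList [m]
        = List.replicate (n + 1) PartrecToTM2.Γ'.bit1 ++ [PartrecToTM2.Γ'.cons] := by
      simp [PartrecToTM2.trList, hm, trNat_ones, n]
    unfold TM2to1.trInit
    rw [hl]
    erw [List.reverse_append, List.reverse_replicate]
    erw [List.map_cons, List.map_replicate]
    rfl
  have e1 : (c.eval [m]).Dom ↔ (StateTransition.eval (TM2.step PartrecToTM2.tr)
      (PartrecToTM2.init c [m])).Dom := by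
    rw [PartrecToTM2.tr_eval]; rfl
  have e2 : PartrecToTM2.init c [m]
      = TM2.init PartrecToTM2.K'.main (PartrecToTM2.trList [m]) := by
    unfold PartrecToTM2.init TM2.init
    congr 1
    funext k
    cases k <;> rfl
  have e3 := TM2to1.tr_eval_dom PartrecToTM2.tr PartrecToTM2.K'.main (PartrecToTM2.trList [m])
  have e4 : (TM0.eval δ0 (TM2to1.trInit PartrecToTM2.K'.main (PartrecToTM2.trList [m]))).Dom ↔
      (TM1.eval M1 (TM2to1.trInit PartrecToTM2.K'.main (PartrecToTM2.trList [m]))).Dom := by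
    rw [TM1to0.tr_eval]
  have e5 : (StateTransition.eval (tmStep δ) (q0, Tape.mk₁ ((true, sym (some PartrecToTM2.Γ'.cons)) ::
        List.replicate (n + 1) ((false, sym (some PartrecToTM2.Γ'.bit1)) : UG)))).Dom ↔
      (StateTransition.eval (TM0.step δ0) (TM0.init
        (TM2to1.trInit PartrecToTM2.K'.main (PartrecToTM2.trList [m])))).Dom := by
    rw [hinput]
    refine (StateTransition.tr_eval_dom (tr := fun (a : Q × Tape UG) b =>
      (⟨a.1.1, a.2⟩ : TM0.Cfg UG _) = b) ?_ rfl).symm
    refine fun_respects.2 fun a => ?_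
    obtain ⟨q, T⟩ := a
    unfold FRespects
    cases hq : δ0 q.1 T.head with
    | none =>
      have h : tmStep δ (q, T) = none := by
        simp only [tmStep, δ]; rw [Option.map_eq_none_iff, Option.pmap_eq_none_iff]; exact hq
      rw [h]
      simp [TM0.step, hq]
    | some r =>
      obtain ⟨q', s⟩ := r
      have hmem : (q', s) ∈ δ0 q.1 T.head := hq
      have h : tmStep δ (q, T) = some (⟨q', hclosed q.1 T.head (q', s) hmem q.2⟩, match s with
          | .move d => T.move d
          | .write a => T.write a) := by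
        simp only [tmStep, δ]
        rw [Option.map_eq_some_iff]
        exact ⟨(⟨q', hclosed q.1 T.head (q', s) hmem q.2⟩, s), Option.pmap_eq_some_iff.2 ⟨(q', s), hmem, hq, rfl⟩, by cases s <;> rfl⟩
      rw [h]
      refine Relation.TransGen.single ?_
      simp only [TM0.step, hq, Option.map_some, Option.mem_def, Option.some.injEq]
      cases s <;> rfl
  rw [e1, e2]
  refine e5.trans ?_
  refine Iff.trans ?_ (e4.trans e3)
  rfl

end Vale.Agent.P113
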