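import Vale.Agent.P113.Geometry
import Vale.Agent.P113.Digits
import Vale.Agent.P113.Universal

/-!
# A reversible simulation of a finite Post-Turing machine by rules on two stacks

The left stack holds the cells left of the head, a separator, and below it the history; the right
stack holds the head and the cells right of it. A step pushes a marker on the right stack; the
cells of the left stack are then moved above the marker, the history entry is inserted below the
separator, and the cells are moved back.
-/

namespace Vale.Agent.P113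

open Turing Set StateTransition

section

set_option linter.unusedSectionVars false

variable {Q G : Type} [Fintype Q] [Fintype G] [Inhabited G]
  (δ : Q → G → Option (Q × TM0.Stmt G))

/-- A history entry: state, head symbol, and the symbol left of the head if there is one. -/
abbrev Entry (Q G : Type) := Q × G × Option G

/-- The control states. -/
abbrev Ctrl (Q G : Type) := Q ⊕ (Q × Entry Q G) ⊕ Q ⊕ Unit

/-- The state in which the machine makes its step. -/
abbrev cRun (q : Q) : Ctrl Q G := Sum.inl q

/-- The state in which cells go to the right stack. -/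
abbrev cGo (q : Q) (e : Entry Q G) : Ctrl Q G := Sum.inr (Sum.inl (q, e))

/-- The state in which cells come back. -/
abbrev cBack (q : Q) : Ctrl Q G := Sum.inr (Sum.inr (Sum.inl q))

/-- The halting state. -/
abbrev cHalt : Ctrl Q G := Sum.inr (Sum.inr (Sum.inr ()))

open Classical in
/-- The digit of a symbol; the blank has digit zero. -/
noncomputable def digit (g : G) : ℕ :=
  if g = default then 0 else (Fintype.equivFin G g : ℕ) + 1

/-- The separator digit. -/
def sepDigit (G : Type) [Fintype G] : ℕ := Fintype.card G + 1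

/-- The marker digit. -/
def markDigit (G : Type) [Fintype G] : ℕ := Fintype.card G + 2

/-- The tick digit. -/
def tickDigit (G : Type) [Fintype G] : ℕ := Fintype.card G + 3

/-- The digit of a history entry. -/
noncomputable def entryDigit (e : Entry Q G) : ℕ :=
  Fintype.card G + 4 + (Fintype.equivFin (Entry Q G) e : ℕ)

/-- The number of digits. -/
def numDigits (Q G : Type) [Fintype Q] [Fintype G] : ℕ :=
  Fintype.card G + 4 + Fintype.card (Entry Q G)

theorem digit_lt (g : G) : digit g < sepDigit G := by
  unfold digit sepDigit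
  split_ifs
  · omega
  · have := (Fintype.equivFin G g).isLt; omega

theorem digit_inj {g g' : G} (h : digit g = digit g') : g = g' := by
  unfold digit at h
  split_ifs at h with h1 h2 h2
  all_goals first
    | rw [h1, h2]
    | (exact (Fintype.equivFin G).injective (Fin.ext (by omega)))

theorem entryDigit_inj {e e' : Entry Q G} (h : entryDigit e = entryDigit e') : e = e' :=
  (Fintype.equivFin (Entry Q G)).injective (Fin.ext (by unfold entryDigit at h; omega))

theorem digit_lt_num (g : G) : digit g < numDigits Q G := by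
  have := digit_lt g; unfold sepDigit numDigits at *; omega

theorem entryDigit_lt (e : Entry Q G) : entryDigit e < numDigits Q G := by
  have := (Fintype.equivFin (Entry Q G) e).isLt
  unfold entryDigit numDigits; omega

/-- A rule: state and prefixes of the two stacks, before and after. -/
structure StackRule (Q G : Type) where
  /-- state before -/
  s : Ctrl Q G
  /-- left prefix before -/
  l : List ℕ
  /-- right prefix before -/
  r : List ℕ
  /-- state after -/
  s' : Ctrl Q G
  /-- left prefix after -/
  l' : List ℕ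
  /-- right prefix after -/
  r' : List ℕ

/-- The top of the left stack named by a history entry. -/
noncomputable def leftTop (o : Option G) : ℕ := o.elim (sepDigit G) digit

/-- The prefixes produced by a step, above the marker. -/
noncomputable def stepTarget (e : Entry Q G) : TM0.Stmt G → List ℕ × List ℕ
  | .write a => ([leftTop e.2.2], [markDigit G, digit a])
  | .move Dir.right => ([digit e.2.1, leftTop e.2.2], [markDigit G])
  | .move Dir.left => (e.2.2.elim [sepDigit G] fun _ => [],
      [markDigit G, e.2.2.elim 0 digit, digit e.2.1])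

/-- The names of the rules. -/
abbrev RuleId (Q G : Type) :=
  Entry Q G ⊕ ((Q × Entry Q G) × Option G) ⊕ (Q × Option G) ⊕ Unit

/-- The rules. -/
noncomputable def stackRule : RuleId Q G → StackRule Q G
  | Sum.inl e =>
    match δ e.1 e.2.1 with
    | none => ⟨cRun e.1, [leftTop e.2.2], [digit e.2.1], cHalt,
        [entryDigit e, leftTop e.2.2], [digit e.2.1]⟩
    | some r => ⟨cRun e.1, [leftTop e.2.2], [digit e.2.1], cGo r.1 e,
        (stepTarget e r.2).1, (stepTarget e r.2).2⟩
  | Sum.inr (Sum.inl ((q, e), some g)) => ⟨cGo q e, [digit g], [], cGo q e, [], [digit g]⟩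
  | Sum.inr (Sum.inl ((q, e), none)) =>
      ⟨cGo q e, [sepDigit G], [], cBack q, [sepDigit G, entryDigit e], []⟩
  | Sum.inr (Sum.inr (Sum.inl (q, some g))) => ⟨cBack q, [], [digit g], cBack q, [digit g], []⟩
  | Sum.inr (Sum.inr (Sum.inl (q, none))) => ⟨cBack q, [], [markDigit G], cRun q, [], []⟩
  | Sum.inr (Sum.inr (Sum.inr _)) => ⟨cHalt, [], [], cHalt, [tickDigit G], []⟩

theorem special_lt (Q G : Type) [Fintype Q] [Fintype G] :
    sepDigit G < numDigits Q G ∧ markDigit G < numDigits Q G ∧ tickDigit G < numDigits Q G ∧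
      0 < numDigits Q G := by
  unfold sepDigit markDigit tickDigit numDigits; omega

theorem leftTop_lt (o : Option G) : leftTop o < numDigits Q G := by
  cases o
  · exact (special_lt Q G).1
  · exact digit_lt_num _

theorem leftTop_inj {o o' : Option G} (h : leftTop o = leftTop o') : o = o' := by
  cases o <;> cases o' <;> simp only [leftTop, Option.elim] at h
  · rfl
  · next g => exact absurd h (digit_lt g).ne'
  · next g => exact absurd h (digit_lt g).ne
  · rw [digit_inj h]

theorem stackRule_ok (i : RuleId Q G) :
    DigitsOK (numDigits Q G) (stackRule δ i).l ∧ DigitsOK (numDigits Q G) (stackRule δ i).r ∧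
    DigitsOK (numDigits Q G) (stackRule δ i).l' ∧ DigitsOK (numDigits Q G) (stackRule δ i).r' := by
  obtain ⟨h1, h2, h3, h4⟩ := special_lt Q G
  have hd : ∀ g : G, digit g < numDigits Q G := digit_lt_num
  have he : ∀ e : Entry Q G, entryDigit e < numDigits Q G := entryDigit_lt
  have ht : ∀ o : Option G, leftTop o < numDigits Q G := leftTop_lt
  rcases i with ⟨q, h, o⟩ | ⟨⟨q, e⟩, _ | g⟩ | ⟨q, _ | g⟩ | u
  · simp only [stackRule]
    rcases δ q h with _ | ⟨q', ⟨_ | _⟩ | a⟩
    · simp [DigitsOK, hd, he, ht]
    · cases o <;> simp [DigitsOK, stepTarget, hd, ht, h1, h2, h4]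
    · simp [DigitsOK, stepTarget, hd, ht, h2]
    · simp [DigitsOK, stepTarget, hd, ht, h2]
  all_goals simp [DigitsOK, stackRule, hd, he, h1, h2, h3]

theorem digit_eq_iff {g g' : G} : digit g = digit g' ↔ g = g' :=
  ⟨digit_inj, fun h => h ▸ rfl⟩

theorem leftTop_eq_iff {o o' : Option G} : leftTop o = leftTop o' ↔ o = o' :=
  ⟨leftTop_inj, fun h => h ▸ rfl⟩

theorem entryDigit_eq_iff {e e' : Entry Q G} : entryDigit e = entryDigit e' ↔ e = e' :=
  ⟨entryDigit_inj, fun h => h ▸ rfl⟩

theorem digit_ne (g : G) : digit g ≠ sepDigit G ∧ sepDigit G ≠ digit g ∧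
    digit g ≠ markDigit G ∧ markDigit G ≠ digit g := by
  have := digit_lt g
  unfold markDigit sepDigit at *; omega

theorem entryDigit_ne (e : Entry Q G) : entryDigit e ≠ tickDigit G ∧
    tickDigit G ≠ entryDigit e := by
  unfold entryDigit tickDigit; omega

/-- The source of a step rule. -/
theorem step_src (e : Entry Q G) : (stackRule δ (Sum.inl e)).s = cRun e.1 ∧
    (stackRule δ (Sum.inl e)).l = [leftTop e.2.2] ∧
    (stackRule δ (Sum.inl e)).r = [digit e.2.1] := by
  simp only [stackRule]
  cases δ e.1 e.2.1 <;> simp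

/-- The target of a step rule. -/
theorem step_tgt (e : Entry Q G) :
    ((stackRule δ (Sum.inl e)).s' = cHalt ∧
      (stackRule δ (Sum.inl e)).l' = [entryDigit e, leftTop e.2.2]) ∨
    ∃ q r, (stackRule δ (Sum.inl e)).s' = cGo q e ∧
      (stackRule δ (Sum.inl e)).r' = markDigit G :: r := by
  simp only [stackRule]
  rcases δ e.1 e.2.1 with _ | ⟨q', ⟨_ | _⟩ | a⟩ <;> simp [stepTarget]

theorem stackRule_src_sep (i j : RuleId Q G) (hij : i ≠ j) :
    (stackRule δ i).s ≠ (stackRule δ j).s ∨ Differ (stackRule δ i).l (stackRule δ j).l ∨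
      Differ (stackRule δ i).r (stackRule δ j).r := by
  by_contra hc
  simp only [not_or, ne_eq, not_not] at hc
  obtain ⟨hs, hl, hr⟩ := hc
  apply hij
  rcases i with ⟨q, h, o⟩ | ⟨⟨q, e⟩, _ | g⟩ | ⟨q, _ | g⟩ | u <;>
    rcases j with ⟨q', h', o'⟩ | ⟨⟨q', e'⟩, _ | g'⟩ | ⟨q', _ | g'⟩ | u' <;>
    (try simp only [(step_src δ _).1, (step_src δ _).2.1, (step_src δ _).2.2] at hs hl hr) <;>
    simp_all [stackRule, Differ, digit_eq_iff, leftTop_eq_iff, digit_ne]

theorem stackRule_tgt_sep (i j : RuleId Q G) (hij : i ≠ j) :
    (stackRule δ i).s' ≠ (stackRule δ j).s' ∨ Differ (stackRule δ i).l' (stackRule δ j).l' ∨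
      Differ (stackRule δ i).r' (stackRule δ j).r' := by
  by_contra hc
  simp only [not_or, ne_eq, not_not] at hc
  obtain ⟨hs, hl, hr⟩ := hc
  apply hij
  rcases i with e0 | ⟨⟨q, e⟩, _ | g⟩ | ⟨q, _ | g⟩ | u <;>
    rcases j with e0' | ⟨⟨q', e'⟩, _ | g'⟩ | ⟨q', _ | g'⟩ | u' <;>
    (try rcases step_tgt δ e0 with ⟨a, b⟩ | ⟨_, _, a, b⟩ <;> rw [a] at hs) <;>
    (try rcases step_tgt δ e0' with ⟨a', b'⟩ | ⟨_, _, a', b'⟩ <;> rw [a'] at hs) <;>
    (try rw [b] at hl) <;> (try rw [b] at hr) <;> (try rw [b'] at hl) <;> (try rw [b'] at hr) <;>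
    simp_all [stackRule, Differ, digit_eq_iff, entryDigit_eq_iff, digit_ne, entryDigit_ne]

end

end Vale.Agent.P113
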