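import Vale.Agent.P113.Flow

/-!
# Trajectories of shear flows
-/

namespace Vale.Agent.P113

open Set
open scoped ContDiff

theorem trajectory_unique {u : ℝ → Point → Point} (hu : ContDiff ℝ ∞ (Function.uncurry u))
    {a : Point} {X Y : ℝ → Point} (hX : IsTrajectory u a X) (hY : IsTrajectory u a Y)
    (T : ℝ) (hT : 0 ≤ T) : Y T = X T := by
  have hcX : ContinuousOn X (Icc 0 T) := fun t ht =>
    ((hX.2 t ht.1).continuousWithinAt).mono Icc_subset_Ici_self
  have hcY : ContinuousOn Y (Icc 0 T) := fun t ht =>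
    ((hY.2 t ht.1).continuousWithinAt).mono Icc_subset_Ici_self
  obtain ⟨R, hR⟩ := ((isCompact_Icc.image_of_continuousOn hcX).union
    (isCompact_Icc.image_of_continuousOn hcY)).isBounded.subset_closedBall 0
  obtain ⟨K, hK⟩ := (hu.of_le (by norm_num : (1 : WithTop ℕ∞) ≤ ∞)).contDiffOn
    |>.exists_lipschitzOnWith one_ne_zero ((convex_Icc (0 : ℝ) T).prod (convex_closedBall (0 : Point) R))
      (isCompact_Icc.prod (isCompact_closedBall (0 : Point) R))
  have hv : ∀ t ∈ Ico (0 : ℝ) T, LipschitzOnWith K (u t) (Metric.closedBall 0 R) := by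
    intro t ht x hx y hy
    have := hK (x := (t, x)) ⟨Ico_subset_Icc_self ht, hx⟩ (y := (t, y))
      ⟨Ico_subset_Icc_self ht, hy⟩
    simpa [Prod.edist_eq] using this
  have hder : ∀ {Z : ℝ → Point}, IsTrajectory u a Z → ∀ t ∈ Ico (0 : ℝ) T,
      HasDerivWithinAt Z (u t (Z t)) (Ici t) t := fun hZ t ht =>
    (hZ.2 t ht.1).mono (Ici_subset_Ici.2 ht.1)
  exact ODE_solution_unique_of_mem_Icc_right hv hcY (hder hY)
    (fun t ht => hR (Or.inr ⟨t, Ico_subset_Icc_self ht, rfl⟩)) hcX (hder hX)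
    (fun t ht => hR (Or.inl ⟨t, Ico_subset_Icc_self ht, rfl⟩)) (by rw [hX.1, hY.1])
    ⟨hT, le_rfl⟩

namespace Shears

variable (S : Shears)

/-- The point reached from `x` after the first `j` phases of one period. -/
def mid (x : Point) : ℕ → Point
  | 0 => x
  | j + 1 => if h : j < S.n + 1 then
      Function.update (mid x j) (S.axis ⟨j, h⟩)
        (mid x j (S.axis ⟨j, h⟩) + S.amount ⟨j, h⟩ (mid x j))
    else mid x j

/-- The point reached from `x` after one period. -/
def stepPoint (x : Point) : Point := S.mid x (S.n + 1)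

/-- The displacement made by phase `j` in the period that starts at `x`. -/
def delta (x : Point) (j : Fin (S.n + 1)) : Point := S.mid x (j + 1) - S.mid x j

theorem delta_apply (x : Point) (j : Fin (S.n + 1)) (i : Fin 3) :
    S.delta x j i = if S.axis j = i then S.amount j (S.mid x j) else 0 := by
  simp only [delta, mid, dif_pos j.isLt, Fin.eta, Pi.sub_apply]
  split_ifs with h
  · subst h; simp
  · rw [Function.update_of_ne (Ne.symm h), sub_self]

theorem sum_delta (x : Point) (k : ℕ) (hk : k ≤ S.n + 1) :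
    (∑ j ∈ (Finset.univ : Finset (Fin (S.n + 1))).filter (fun j => j.val < k), S.delta x j)
      = S.mid x k - x := by
  induction k with
  | zero => simp [mid]
  | succ k ih =>
    have hkn : k < S.n + 1 := hk
    have : (Finset.univ : Finset (Fin (S.n + 1))).filter (fun j => j.val < k + 1)
        = insert ⟨k, hkn⟩ ((Finset.univ : Finset (Fin (S.n + 1))).filter fun j => j.val < k) := by
      ext j
      simp only [Finset.mem_filter, Finset.mem_univ, true_and, Finset.mem_insert, Fin.ext_iff]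
      omega
    rw [this, Finset.sum_insert (by simp), ih (Nat.le_of_succ_le hk), delta]
    simp only
    abel

/-- The displacement accumulated at time `τ` of the period that starts at `x`. -/
noncomputable def part (x : Point) (τ : ℝ) : Point := ∑ j, S.prog j τ • S.delta x j

theorem part_zero (x : Point) {τ : ℝ} (h : τ ≤ 1 / 2) : S.part x τ = 0 := by
  refine Finset.sum_eq_zero fun j _ => ?_
  rw [S.prog_zero (h.trans ?_), zero_smul]
  have : (0 : ℝ) ≤ ((j : ℕ) : ℝ) * S.len :=
    mul_nonneg (Nat.cast_nonneg _) (by exact_mod_cast S.len_pos.le)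
  linarith

theorem part_one (x : Point) {τ : ℝ} (h : 7 / 8 ≤ τ) : S.part x τ = S.stepPoint x - x := by
  rw [stepPoint, ← S.sum_delta x (S.n + 1) le_rfl, part, Finset.filter_true_of_mem fun j _ => j.isLt]
  refine Finset.sum_congr rfl fun j _ => ?_
  rw [S.prog_one ((S.window j).trans h), one_smul]

/-- During a period at most one phase is under way. -/
theorem part_eq (x : Point) (τ : ℝ) : ∃ k : Fin (S.n + 1),
    x + S.part x τ = S.mid x k + S.prog k τ • S.delta x k ∧
      ∀ j, S.speed j τ ≠ 0 → j = k := by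
  have hl : (0 : ℝ) < S.len := by exact_mod_cast S.len_pos
  set k0 : ℕ := min ⌊(τ - 1 / 2) / S.len⌋₊ S.n with hk0
  have hk0n : k0 < S.n + 1 := Nat.lt_succ_of_le (min_le_right _ _)
  refine ⟨⟨k0, hk0n⟩, ?_, ?_⟩
  · have hbelow : ∀ j : Fin (S.n + 1), (j : ℕ) < k0 → S.prog j τ = 1 := by
      intro j hj
      apply S.prog_one
      have h1 : ((j : ℕ) + 1) ≤ ⌊(τ - 1 / 2) / S.len⌋₊ := hj.trans_le (min_le_left _ _)
      have h2 := (Nat.le_floor_iff' (by omega)).1 h1
      rw [le_div_iff₀ hl] at h2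
      push_cast at h2
      linarith
    have habove : ∀ j : Fin (S.n + 1), k0 < (j : ℕ) → S.prog j τ = 0 := by
      intro j hj
      apply S.prog_zero
      have h1 : ⌊(τ - 1 / 2) / S.len⌋₊ < (j : ℕ) := by have := j.isLt; omega
      have h2 := Nat.lt_of_floor_lt h1
      rw [div_lt_iff₀ hl] at h2
      linarith
    have hsplit : S.part x τ =
        (∑ j ∈ (Finset.univ : Finset (Fin (S.n + 1))).filter (fun j => j.val < k0), S.delta x j)
          + S.prog ⟨k0, hk0n⟩ τ • S.delta x ⟨k0, hk0n⟩ := by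
      rw [part, ← Finset.sum_erase_add _ _ (Finset.mem_univ ⟨k0, hk0n⟩), Finset.sum_filter]
      congr 1
      rw [← Finset.sum_erase (f := fun j : Fin (S.n + 1) => if (j : ℕ) < k0 then S.delta x j else 0)
        (a := ⟨k0, hk0n⟩) Finset.univ (by simp)]
      refine Finset.sum_congr rfl fun j hj => ?_
      have hne : (j : ℕ) ≠ k0 := fun h => Finset.ne_of_mem_erase hj (Fin.ext h)
      rcases lt_or_gt_of_ne hne with h | h
      · rw [hbelow j h, one_smul, if_pos h]
      · rw [habove j h, zero_smul, if_neg (by omega)]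
    rw [hsplit, S.sum_delta x k0 hk0n.le]
    simp only
    abel
  · intro j hj
    obtain ⟨h1, h2⟩ := S.speed_ne hj
    apply Fin.ext
    have h3 : ⌊(τ - 1 / 2) / S.len⌋₊ = (j : ℕ) := by
      rw [Nat.floor_eq_iff (div_nonneg ?_ hl.le)]
      · rw [le_div_iff₀ hl, div_lt_iff₀ hl]
        constructor <;> linarith
      · have : (0 : ℝ) ≤ ((j : ℕ) : ℝ) * S.len := mul_nonneg (Nat.cast_nonneg _) hl.le
        linarith
    show (j : ℕ) = k0
    have := j.isLt
    omega

theorem part_hasDerivAt (x : Point) (τ : ℝ) :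
    HasDerivAt (S.part x) (∑ j, S.speed j τ • S.delta x j) τ :=
  HasDerivAt.fun_sum fun j _ => (S.prog_hasDerivAt j τ).smul_const _

variable (P : Fin 3 → ℚ) (pts : ℕ → Point)

/-- The trajectory through the given way points. -/
noncomputable def traj (t : ℝ) : Point :=
  loadProg t • pts 0 + ∑ m ∈ Finset.range (⌊t⌋₊ + 1), S.part (pts m) (t - m)

theorem traj_eq_range {t : ℝ} {K : ℕ} (hK : ⌊t⌋₊ + 1 ≤ K) :
    S.traj pts t = loadProg t • pts 0 + ∑ m ∈ Finset.range K, S.part (pts m) (t - m) := by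
  unfold traj
  congr 1
  refine Finset.sum_subset (Finset.range_mono hK) fun m _ hm => S.part_zero _ ?_
  have h1 : ⌊t⌋₊ + 1 ≤ m := by simpa using hm
  have h2 : t < (⌊t⌋₊ : ℝ) + 1 := Nat.lt_floor_add_one t
  have h3 : ((⌊t⌋₊ : ℝ) + 1) ≤ (m : ℝ) := by exact_mod_cast h1
  linarith

variable (hpts : ∀ m, pts (m + 1) = S.stepPoint (pts m))
include hpts

theorem traj_formula {t : ℝ} (ht : 0 ≤ t) :
    S.traj pts t = (loadProg t - 1) • pts 0 + (pts ⌊t⌋₊ + S.part (pts ⌊t⌋₊) (t - (⌊t⌋₊ : ℕ))) := by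
  unfold traj
  rw [Finset.sum_range_succ]
  have h : ∑ m ∈ Finset.range ⌊t⌋₊, S.part (pts m) (t - m) = pts ⌊t⌋₊ - pts 0 := by
    rw [← Finset.sum_range_sub pts]
    refine Finset.sum_congr rfl fun m hm => ?_
    rw [hpts m, S.part_one]
    have h1 : ((m : ℝ) + 1) ≤ (⌊t⌋₊ : ℝ) := by exact_mod_cast Finset.mem_range.1 hm
    have h2 := Nat.floor_le ht
    linarith
  rw [h, sub_smul, one_smul]
  abel

theorem traj_at_nat (m : ℕ) (hm : 1 ≤ m) : S.traj pts m = pts m := by
  rw [S.traj_formula pts hpts (Nat.cast_nonneg m), loadProg_one ?_, Nat.floor_natCast, sub_self,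
    sub_self, zero_smul, zero_add, S.part_zero _ (by norm_num), add_zero]
  have : (1 : ℝ) ≤ m := by exact_mod_cast hm
  linarith

theorem traj_segment {t : ℝ} (ht : 0 ≤ t) :
    (∃ s ∈ Icc (0 : ℝ) 1, S.traj pts t = s • pts 0) ∨
    ∃ (m : ℕ) (k : Fin (S.n + 1)), ∃ s ∈ Icc (0 : ℝ) 1,
      S.traj pts t = (1 - s) • S.mid (pts m) k + s • S.mid (pts m) (k + 1) := by
  rcases lt_or_ge t (3 / 8) with h | h
  · refine Or.inl ⟨loadProg t, sigma_div_kappa_mem _, ?_⟩
    have hf : ⌊t⌋₊ = 0 := Nat.floor_eq_zero.2 (by linarith)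
    rw [S.traj_formula pts hpts ht, hf, S.part_zero _ (by push_cast; linarith), add_zero,
      sub_smul, one_smul, sub_add_cancel]
  · obtain ⟨k, hk, -⟩ := S.part_eq (pts ⌊t⌋₊) (t - (⌊t⌋₊ : ℕ))
    refine Or.inr ⟨⌊t⌋₊, k, S.prog k (t - (⌊t⌋₊ : ℕ)), sigma_div_kappa_mem _, ?_⟩
    rw [S.traj_formula pts hpts ht, loadProg_one h, sub_self, zero_smul, zero_add, hk, delta,
      smul_sub, sub_smul, one_smul]
    abel

theorem traj_isTrajectory (hP : pts 0 = fun i => (P i : ℝ)) :
    IsTrajectory (S.field P) 0 (S.traj pts) := by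
  refine ⟨?_, fun t ht => ?_⟩
  · rw [S.traj_formula pts hpts le_rfl, Nat.floor_zero, S.part_zero _ (by norm_num), add_zero,
      loadProg, sigma_of_le (by norm_num), zero_div, zero_sub, neg_one_smul, neg_add_cancel]
  set K := ⌊t⌋₊ + 2 with hK
  have heq : S.traj pts =ᶠ[nhds t]
      fun s => loadProg s • pts 0 + ∑ m ∈ Finset.range K, S.part (pts m) (s - m) := by
    filter_upwards [Iio_mem_nhds (show t < (⌊t⌋₊ : ℝ) + 1 + 1 by
      have := Nat.lt_floor_add_one t; linarith)] with s hs
    apply S.traj_eq_range pts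
    have : ⌊s⌋₊ < ⌊t⌋₊ + 2 := (Nat.floor_lt' (by omega)).2 (by push_cast; linarith [mem_Iio.1 hs])
    omega
  have hd : HasDerivAt (S.traj pts) ((8 * kappa⁻¹ * bumpVal (loadBump 0) t) • pts 0
      + ∑ m ∈ Finset.range K, ∑ j, S.speed j (t - m) • S.delta (pts m) j) t := by
    refine HasDerivAt.congr_of_eventuallyEq ?_ heq
    refine ((loadProg_hasDerivAt t).smul_const _).add (HasDerivAt.fun_sum fun m _ => ?_)
    exact (S.part_hasDerivAt (pts m) (t - m)).comp_sub_const t (m : ℝ)
  have hval : (8 * kappa⁻¹ * bumpVal (loadBump 0) t) • pts 0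
      + ∑ m ∈ Finset.range K, ∑ j, S.speed j (t - m) • S.delta (pts m) j
        = S.field P t (S.traj pts t) := by
    have hload : (8 * kappa⁻¹ * bumpVal (loadBump 0) t) • pts 0 = loadVel P t := by
      rw [hP]
      funext i
      simp only [loadVel, Pi.smul_apply, smul_eq_mul]
      ring
    rw [hload, add_comm, field]
    congr 1
    rw [Finset.sum_eq_single ⌊t⌋₊]
    · obtain ⟨k, hk, hone⟩ := S.part_eq (pts ⌊t⌋₊) (t - (⌊t⌋₊ : ℕ))
      have hfr : Int.fract t = t - (⌊t⌋₊ : ℕ) := by
        rw [Int.fract, natCast_floor_eq_intCast_floor ht]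
      have hX : ∀ j, S.speed j (t - (⌊t⌋₊ : ℕ)) ≠ 0 →
          S.amount j (S.traj pts t) = S.amount j (S.mid (pts ⌊t⌋₊) j) := by
        intro j hj
        have hjk := hone j hj
        subst hjk
        have hgt : 3 / 8 ≤ t := by
          have h1 := (S.speed_mem hj).1
          have h2 : (0 : ℝ) ≤ (⌊t⌋₊ : ℝ) := Nat.cast_nonneg _
          linarith
        rw [S.traj_formula pts hpts ht, loadProg_one hgt, sub_self, zero_smul, zero_add, hk]
        have : S.mid (pts ⌊t⌋₊) j + S.prog j (t - (⌊t⌋₊ : ℕ)) • S.delta (pts ⌊t⌋₊) j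
            = Function.update (S.mid (pts ⌊t⌋₊) j) (S.axis j)
              (S.mid (pts ⌊t⌋₊) j (S.axis j) + S.prog j (t - (⌊t⌋₊ : ℕ)) *
                S.amount j (S.mid (pts ⌊t⌋₊) j)) := by
          funext i
          rcases eq_or_ne i (S.axis j) with rfl | hne
          · simp [delta_apply]
          · simp [delta_apply, Function.update_of_ne hne, Ne.symm hne]
        rw [this, S.indep]
      funext i
      simp only [Finset.sum_apply, Pi.smul_apply, smul_eq_mul, vel, delta_apply, perSpeed_eq, hfr]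
      refine Finset.sum_congr rfl fun j _ => ?_
      by_cases hj : S.speed j (t - (⌊t⌋₊ : ℕ)) = 0
      · simp [hj]
      · rw [hX j hj, mul_ite, mul_zero]
    · intro m hm hne
      refine Finset.sum_eq_zero fun j _ => ?_
      suffices S.speed j (t - m) = 0 by rw [this, zero_smul]
      by_contra hs
      obtain ⟨h1, h2⟩ := S.speed_mem hs
      apply hne
      symm
      rw [Nat.floor_eq_iff ht]
      constructor <;> linarith
    · intro h
      exact absurd (Finset.mem_range.2 (by omega)) h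
  rw [← hval]
  exact hd.hasDerivWithinAt

end Shears

end Vale.Agent.P113
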